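import Vale.Agent.P057Z.Fr.Sk2
import Vale.Agent.P057Z.Km.Sk

/-! Block Fr: a Bohr box of small rank in 2S - 2S. -/

open Finset
open scoped BigOperators

namespace Vale.Agent.P057Z.Fr

namespace BogA

variable {Q : ℕ} [Fact Q.Prime] {n : ℕ}

theorem near_tb {x : V Q n} {T : ℕ} (h : Near x T) :
    x ∈ tb (fun _ => -(T : ZMod Q)) (2 * T + 1) := by
  obtain ⟨v, hv, rfl⟩ := h
  rw [mem_tb, mem_bx]
  refine ⟨fun i => (v i + T).toNat, fun i => ?_, funext fun i => ?_⟩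
  · have := abs_le.1 (hv i)
    show (v i + T).toNat < 2 * T + 1
    omega
  · have h1 := abs_le.1 (hv i)
    have h2 : (((v i + T).toNat : ℕ) : ℤ) = v i + T := Int.toNat_of_nonneg (by omega)
    have h3 : (((v i + T).toNat : ℕ) : ZMod Q) = ((v i + T : ℤ) : ZMod Q) := by
      rw [← h2, Int.cast_natCast, h2]
    show (v i : ZMod Q) - -(T : ZMod Q) = (((v i + T).toNat : ℕ) : ZMod Q)
    rw [h3]
    push_cast
    ring

theorem psi_zero {G : Type} [AddCommGroup G] [DecidableEq G] {A1 A2 : Finset G}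
    (h1 : A1.Nonempty) (h2 : A2.Nonempty) :
    Km.psi A1 A2 ((A1 ×ˢ A2).image fun p => p.1 + p.2) 0 = 1 := by
  unfold Km.psi
  rw [filter_true_of_mem fun p hp => by
    rw [add_zero]
    exact mem_image_of_mem (fun p : G × G => p.1 + p.2) hp, card_product]
  have a1 : (0 : ℝ) < #A1 := by exact_mod_cast h1.card_pos
  have a2 : (0 : ℝ) < #A2 := by exact_mod_cast h2.card_pos
  push_cast
  exact div_self (by positivity)

theorem psi_pos {G : Type} [AddCommGroup G] [DecidableEq G] {A1 A2 W : Finset G} {x : G}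
    (h : 0 < Km.psi A1 A2 W x) : ∃ a ∈ A1, ∃ a' ∈ A2, a + a' + x ∈ W := by
  by_contra hc
  unfold Km.psi at h
  rw [filter_false_of_mem fun p hp hw =>
    hc ⟨p.1, (mem_product.1 hp).1, p.2, (mem_product.1 hp).2, hw⟩] at h
  simp at h

end BogA

open BogA in
theorem bog (hA : Km.APB) (hB : BOX) : BOG := by
  obtain ⟨X0, hA⟩ := hA (1 / 2) (by norm_num)
  refine ⟨max X0 0, fun X Z hX hZ hZX Q _ n S x0 T4 T' Ta T6 hn h6 hTa hT' hT4 hQ hS hc => ?_⟩
  obtain ⟨b1, b2, -, b4, b5, -⟩ := hB Q n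
  have hX0 : 0 ≤ X := (le_max_right _ _).trans hX
  have hTa1 : 1 ≤ Ta := by
    have e1 : (1 : ℝ) ≤ Real.exp (10 * X) := Real.one_le_exp (by linarith)
    have e2 : (1 : ℝ) ≤ T6 := by exact_mod_cast h6
    have e3 : (1 : ℝ) * 1 ≤ T6 * Real.exp (10 * X) := mul_le_mul e2 e1 (by norm_num) (by linarith)
    have e4 : (1 : ℝ) ≤ Ta := by linarith
    exact_mod_cast e4
  have i1 : 8 * (n * Ta) + 8 * Ta ≤ T' := by
    have : 8 * (n + 1) * Ta = 8 * (n * Ta) + 8 * Ta := by ring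
    omega
  have i2 : 4 * (n * T') + 4 * T' ≤ T4 := by
    have : 4 * (n + 1) * T' = 4 * (n * T') + 4 * T' := by ring
    omega
  have i3 : n ≤ n * Ta := Nat.le_mul_of_pos_right n hTa1
  have i4 : n * (2 * Ta + 1) ≤ n * T' := Nat.mul_le_mul_left n (by omega)
  have i5 : 2 * n * (2 * Ta + 1) ≤ T' := by
    have : 2 * n * (2 * Ta + 1) = 4 * (n * Ta) + 2 * n := by ring
    omega
  have i6 : 2 * n * (2 * Ta + 1 + T') ≤ T4 := by
    have : 2 * n * (2 * Ta + 1 + T') = 2 * (n * (2 * Ta + 1)) + 2 * (n * T') := by ring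
    omega
  have i7 : 2 * n * T' ≤ T4 := by
    have : 2 * n * T' = 2 * (n * T') := by ring
    omega
  obtain ⟨x', hx'⟩ := b5 x0 T4 T' S hS (by omega) i7
  have p4 : (0 : ℝ) < (T4 : ℝ) ^ n := pow_pos (by exact_mod_cast (by omega : 0 < T4)) n
  have p' : (0 : ℝ) < (T' : ℝ) ^ n := pow_pos (by exact_mod_cast (by omega : 0 < T')) n
  have pe := Real.exp_pos X
  have hx'' : (#S : ℝ) * (T' : ℝ) ^ n ≤ 2 * (T4 : ℝ) ^ n * #(S ∩ tb x' T') := by
    exact_mod_cast hx'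
  have k1 : 2 * (T' : ℝ) ^ n ≤ Real.exp X * #(S ∩ tb x' T') := by
    have a1 := mul_le_mul_of_nonneg_right hc p'.le
    have a2 := mul_le_mul_of_nonneg_left hx'' pe.le
    refine le_of_mul_le_mul_left ?_ (by positivity : 0 < 2 * (T4 : ℝ) ^ n)
    linarith
  have n1 : S.Nonempty := by
    rw [← card_pos]
    have a1 : (0 : ℝ) < Real.exp X * #S := by linarith
    exact_mod_cast (pos_iff_pos_of_mul_pos a1).1 pe
  have n2 : (S ∩ tb x' T').Nonempty := by
    rw [← card_pos]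
    have a1 : (0 : ℝ) < Real.exp X * #(S ∩ tb x' T') := by linarith
    exact_mod_cast (pos_iff_pos_of_mul_pos a1).1 pe
  have m2 : ∀ a ∈ (S ∩ tb x' T').image (fun s => -s), ∀ x : V Q n, Near x Ta →
      a + x ∈ tb ((fun _ => -(Ta : ZMod Q)) - x' - fun _ => (T' : ZMod Q)) (2 * Ta + 1 + T') := by
    intro a ha x hx
    obtain ⟨s, hs, rfl⟩ := mem_image.1 ha
    rw [neg_add_eq_sub]
    exact (b2 _ _ _ _ _ _ (near_tb hx) (mem_inter.1 hs).2).2
  have mB : ∀ x ∈ Km.BB (0 : V Q n →ₗ[ZMod Q] (Fin 0 → ZMod Q)) Ta 1, Near x Ta := by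
    intro x hx
    simp only [Km.BB, mem_filter] at hx
    exact hx.2.1
  obtain ⟨r, ξ, hr, hξ⟩ := hA X Z ((le_max_left _ _).trans hX) hZ hZX Q n (Fin 0) 0 1 Ta T6 S
    ((S ∩ tb x' T').image fun s => -s)
    ((S ×ˢ (S ∩ tb x' T').image fun s => -s).image fun p => p.1 + p.2)
    (tb (x0 + ((fun _ => -(Ta : ZMod Q)) - x' - fun _ => (T' : ZMod Q))) (T4 + (2 * Ta + 1 + T')))
    (tb ((fun _ => -(Ta : ZMod Q)) - x' - fun _ => (T' : ZMod Q)) (2 * Ta + 1 + T'))
    (by rw [Fintype.card_fin]; push_cast; linarith) hn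
    (Real.exp_le_one_iff.2 (by linarith)) h6 hTa (by omega) n1 (n2.image _)
    (by
      have a1 := (b1 (x0 + ((fun _ => -(Ta : ZMod Q)) - x' - fun _ => (T' : ZMod Q)))
        (T4 + (2 * Ta + 1 + T'))).1.trans (b4 _ _ i6)
      have a2 : (#(tb (x0 + ((fun _ => -(Ta : ZMod Q)) - x' - fun _ => (T' : ZMod Q)))
        (T4 + (2 * Ta + 1 + T'))) : ℝ) ≤ 2 * (T4 : ℝ) ^ n := by exact_mod_cast a1
      linarith)
    (by
      have a0 := b4 _ _ i5
      rw [add_comm T'] at a0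
      have a1 := (b1 ((fun _ => -(Ta : ZMod Q)) - x' - fun _ => (T' : ZMod Q))
        (2 * Ta + 1 + T')).1.trans a0
      have a2 : (#(tb ((fun _ => -(Ta : ZMod Q)) - x' - fun _ => (T' : ZMod Q))
        (2 * Ta + 1 + T')) : ℝ) ≤ 2 * (T' : ℝ) ^ n := by exact_mod_cast a1
      rw [card_image_of_injective _ neg_injective]
      linarith)
    (fun a ha x hx => m2 a ha x (mB x hx))
    (fun a ha a' ha' x hx => by
      rw [add_assoc a]
      exact (b2 _ _ _ _ _ _ (hS ha) (m2 a' ha' x (mB x hx))).1)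
  refine ⟨univ.image ξ, ?_, fun x hx hθ => ?_⟩
  · have a1 : #(univ.image ξ) ≤ r := card_image_le.trans (by simp)
    have a2 : (#(univ.image ξ) : ℝ) ≤ r := by exact_mod_cast a1
    linarith
  · have a1 := hξ x hx (by
      have e : l1 ((0 : V Q n →ₗ[ZMod Q] (Fin 0 → ZMod Q)) x) = 0 := by simp [l1]
      rw [e]
      positivity) fun i => hθ _ (mem_image_of_mem ξ (mem_univ i))
    rw [psi_zero n1 (n2.image _)] at a1
    obtain ⟨a, ha, a', ha', hw⟩ := psi_pos (x := x) (by linarith [(abs_le.1 a1).1] :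
      0 < Km.psi S ((S ∩ tb x' T').image fun s => -s)
        ((S ×ˢ (S ∩ tb x' T').image fun s => -s).image fun p => p.1 + p.2) x)
    obtain ⟨p, hp, e⟩ := mem_image.1 hw
    obtain ⟨s, hs, rfl⟩ := mem_image.1 ha'
    obtain ⟨s', hs', e'⟩ := mem_image.1 (mem_product.1 hp).2
    refine ⟨p.1, (mem_product.1 hp).1, s, (mem_inter.1 hs).1, a, ha, s', (mem_inter.1 hs').1, ?_⟩
    rw [← e'] at e
    have e2 : x = p.1 + -s' - (a + -s) := by rw [e]; abel
    rw [e2]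
    abel

end Vale.Agent.P057Z.Fr
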