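import Vale.Agent.P057Z.Fr.Sk

/-! Block Fr: arithmetic of translated boxes, and a ball that hardly grows. -/

set_option linter.all false

open Finset
open scoped BigOperators

namespace Vale.Agent.P057Z.Fr

namespace Box

variable {Q : ℕ} [Fact Q.Prime] {n : ℕ}

theorem card_tb (x : V Q n) (T : ℕ) :
    (tb x T).card = ((range T).image (Nat.cast : ℕ → ZMod Q)).card ^ n := by
  unfold tb bx
  rw [card_image_of_injective _ (add_left_injective x), Fintype.card_piFinset, prod_const,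
    card_univ, Fintype.card_fin]

theorem card_le (x : V Q n) (T : ℕ) : (tb x T).card ≤ T ^ n := by
  rw [card_tb]
  exact Nat.pow_le_pow_left (card_image_le.trans (card_range T).le) n

theorem card_eq (x : V Q n) {T : ℕ} (h : T ≤ Q) : (tb x T).card = T ^ n := by
  rw [card_tb, card_image_of_injOn, card_range]
  intro a ha b hb e
  have ha' : a < Q := (mem_range.1 (mem_coe.1 ha)).trans_le h
  have hb' : b < Q := (mem_range.1 (mem_coe.1 hb)).trans_le h
  rw [← ZMod.val_cast_of_lt ha', ← ZMod.val_cast_of_lt hb']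
  exact congrArg ZMod.val e

theorem mem {T : ℕ} {x y : V Q n} :
    y ∈ tb x T ↔ ∃ v : Fin n → ℕ, (∀ i, v i < T) ∧ ∀ i, y i = x i + (v i : ZMod Q) := by
  rw [mem_tb, mem_bx]
  refine exists_congr fun v => and_congr_right fun _ => ?_
  rw [funext_iff]
  exact forall_congr' fun i => by rw [Pi.sub_apply, sub_eq_iff_eq_add']

theorem add_mem {x y a b : V Q n} {T1 T2 : ℕ} (ha : a ∈ tb x T1) (hb : b ∈ tb y T2) :
    a + b ∈ tb (x + y) (T1 + T2) := by
  obtain ⟨v, hv, ev⟩ := mem.1 ha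
  obtain ⟨w, hw, ew⟩ := mem.1 hb
  refine mem.2 ⟨fun i => v i + w i, fun i => add_lt_add (hv i) (hw i), fun i => ?_⟩
  rw [Pi.add_apply, Pi.add_apply, ev, ew, Nat.cast_add]
  ring

theorem sub_mem {x y a b : V Q n} {T1 T2 : ℕ} (ha : a ∈ tb x T1) (hb : b ∈ tb y T2) :
    a - b ∈ tb (x - y - fun _ => (T2 : ZMod Q)) (T1 + T2) := by
  obtain ⟨v, hv, ev⟩ := mem.1 ha
  obtain ⟨w, hw, ew⟩ := mem.1 hb
  refine mem.2 ⟨fun i => v i + (T2 - w i),
    fun i => add_lt_add_of_lt_of_le (hv i) (Nat.sub_le _ _), fun i => ?_⟩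
  rw [Pi.sub_apply, Pi.sub_apply, Pi.sub_apply, ev, ew, Nat.cast_add, Nat.cast_sub (hw i).le]
  ring

theorem sum_mem {y b x : V Q n} {T1 T2 : ℕ} (hb : b ∈ tb x T1) :
    ∀ (j : ℕ) (s : Fin j → V Q n), (∀ i, s i ∈ tb y T2) →
      b + ∑ i, s i ∈ tb (x + j • y) (T1 + j * T2)
  | 0, _, _ => by simpa using hb
  | j + 1, s, hs => by
    have := add_mem (sum_mem hb j (fun i => s i.castSucc) fun i => hs _) (hs (Fin.last j))
    rwa [add_assoc, add_assoc, add_assoc, ← Fin.sum_univ_castSucc, ← succ_nsmul,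
      ← Nat.succ_mul] at this

theorem pow_aux {n T1 T2 : ℕ} (h : 2 * n * T2 ≤ T1) :
    ∀ k ≤ n, (T1 + T2) ^ k * T1 ≤ T1 ^ k * (T1 + 2 * k * T2)
  | 0, _ => by simp
  | k + 1, hk => by
    have h1 := pow_aux h k (by omega)
    have h2 : 2 * k * T2 ≤ T1 :=
      (Nat.mul_le_mul_right _ (Nat.mul_le_mul_left _ (by omega))).trans h
    have h3 : (T1 + 2 * k * T2) * (T1 + T2) ≤ T1 * (T1 + 2 * (k + 1) * T2) := by
      nlinarith [Nat.mul_le_mul_right T2 h2]
    calc (T1 + T2) ^ (k + 1) * T1 = (T1 + T2) ^ k * T1 * (T1 + T2) := by ring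
      _ ≤ T1 ^ k * (T1 + 2 * k * T2) * (T1 + T2) := Nat.mul_le_mul_right _ h1
      _ = T1 ^ k * ((T1 + 2 * k * T2) * (T1 + T2)) := by ring
      _ ≤ T1 ^ k * (T1 * (T1 + 2 * (k + 1) * T2)) := Nat.mul_le_mul_left _ h3
      _ = _ := by ring

theorem pow_le {n T1 T2 : ℕ} (h : 2 * n * T2 ≤ T1) : (T1 + T2) ^ n ≤ 2 * T1 ^ n := by
  rcases Nat.eq_zero_or_pos T1 with rfl | h0
  · rcases Nat.eq_zero_or_pos n with rfl | hn
    · simp
    · have : T2 = 0 := by
        rcases Nat.mul_eq_zero.1 (Nat.le_zero.1 h) with h1 | h1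
        · omega
        · exact h1
      rw [this, add_zero]
      omega
  · refine Nat.le_of_mul_le_mul_right ((pow_aux h n le_rfl).trans ?_) h0
    calc T1 ^ n * (T1 + 2 * n * T2) ≤ T1 ^ n * (T1 + T1) :=
          Nat.mul_le_mul_left _ (Nat.add_le_add_left h _)
      _ = _ := by ring

theorem dense (x : V Q n) {T T' : ℕ} {S : Finset (V Q n)} (hS : S ⊆ tb x T) (hQ : T' ≤ Q)
    (hT : 2 * n * T' ≤ T) : ∃ x' : V Q n, S.card * T' ^ n ≤ 2 * T ^ n * (S ∩ tb x' T').card := by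
  classical
  obtain ⟨x', -, hx'⟩ := exists_max_image univ (fun z : V Q n => (S ∩ tb z T').card) univ_nonempty
  refine ⟨x', (card_mul_le_card_mul (s := S) (t := tb (x - 0 - fun _ => (T' : ZMod Q)) (T + T'))
    (n := (S ∩ tb x' T').card) (fun s z => s ∈ tb z T') (fun s hs => ?_) fun z _ => ?_).trans
    (Nat.mul_le_mul_right _ ((card_le _ _).trans (pow_le hT)))⟩
  · rw [← card_eq (0 : V Q n) hQ]
    refine card_le_card_of_injOn (fun v => s - v) (fun v hv => ?_)
      fun _ _ _ _ e => sub_right_injective e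
    rw [mem_coe, mem_bipartiteAbove]
    refine ⟨sub_mem (hS hs) (mem_coe.1 hv), ?_⟩
    have := mem_tb.1 (mem_coe.1 hv)
    rw [sub_zero] at this
    rw [mem_tb, sub_sub_cancel]
    exact this
  · refine le_trans (card_le_card fun s hs => ?_) (hx' z (mem_univ _))
    rw [mem_bipartiteBelow] at hs
    exact mem_inter.2 hs

theorem tiles (x : V Q n) {T T' : ℕ} {S : Finset (V Q n)} (hS : S ⊆ tb x T) (h1 : 1 ≤ T')
    (hT : 4 * n * T' ≤ T) :
    ∃ j : Fin n → ℕ, S.card * T' ^ n ≤ 2 * T ^ n * (S ∩ tile Q n T' j).card := by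
  classical
  set J : Finset (Fin n → ℕ) := Fintype.piFinset fun i =>
    Icc ((x i).val / T') ((x i).val / T' + T / T' + 1) with hJ
  have hc : J.card = (T / T' + 2) ^ n := by
    rw [hJ, Fintype.card_piFinset, prod_congr rfl fun i _ =>
      (by rw [Nat.card_Icc, add_assoc, add_assoc, Nat.add_sub_cancel_left] : (Icc ((x i).val / T') ((x i).val / T' + T / T' + 1)).card =
        T / T' + 2), prod_const, card_univ, Fintype.card_fin]
  obtain ⟨j, -, hj⟩ := exists_max_image J (fun z => (S ∩ tile Q n T' z).card)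
    (card_pos.1 (by rw [hc]; positivity))
  have h2 : S.card * 1 ≤ J.card * (S ∩ tile Q n T' j).card := by
    refine card_mul_le_card_mul (fun s z => s ∈ tile Q n T' z) (fun s hs => ?_) fun z hz => ?_
    · obtain ⟨v, hv, ev⟩ := mem.1 (hS hs)
      refine card_pos.2 ⟨fun i => ((x i).val + v i) / T', ?_⟩
      rw [mem_bipartiteAbove, hJ, Fintype.mem_piFinset, tile_eq]
      refine ⟨fun i => mem_Icc.2 ⟨Nat.div_le_div_right (Nat.le_add_right _ _), ?_⟩,
        mem.2 ⟨fun i => ((x i).val + v i) % T', fun i => Nat.mod_lt _ h1, fun i => ?_⟩⟩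
      · have : v i / T' ≤ T / T' := Nat.div_le_div_right (hv i).le
        rw [Nat.add_div h1]
        split_ifs <;> omega
      · rw [← Nat.cast_add, Nat.div_add_mod, Nat.cast_add, ZMod.natCast_zmod_val, ev]
    · refine le_trans (card_le_card fun s hs => ?_) (hj z hz)
      rw [mem_bipartiteBelow] at hs
      exact mem_inter.2 hs
  have h3 : (T / T' + 2) ^ n * T' ^ n ≤ 2 * T ^ n := by
    rw [← mul_pow]
    refine le_trans (Nat.pow_le_pow_left ?_ n) (pow_le (T2 := 2 * T') (le_trans (le_of_eq ?_) hT))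
    · rw [add_mul]
      exact Nat.add_le_add_right (Nat.div_mul_le_self _ _) _
    · ring
  refine ⟨j, ?_⟩
  rw [mul_one, hc] at h2
  calc S.card * T' ^ n ≤ (T / T' + 2) ^ n * (S ∩ tile Q n T' j).card * T' ^ n :=
        Nat.mul_le_mul_right _ h2
    _ = (T / T' + 2) ^ n * T' ^ n * (S ∩ tile Q n T' j).card := by ring
    _ ≤ _ := Nat.mul_le_mul_right _ h3

end Box

open Box in
theorem box : BOX := fun _ _ _ =>
  ⟨fun x T => ⟨card_le x T, card_eq x⟩, fun _ _ _ _ _ _ ha hb => ⟨add_mem ha hb, sub_mem ha hb⟩,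
    fun _ _ _ _ _ j s hb hs => sum_mem hb j s hs, fun _ _ => pow_le,
    fun x _ _ _ => dense x, fun x _ _ _ => tiles x⟩

open Box in
theorem fat : FAT := by
  intro Q _ m r0 h0 h1
  have hQ : (0 : ℝ) < Q := Qpos
  set R := ⌊r0 * Q⌋₊ with hR
  have hR1 : (R : ℝ) ≤ r0 * Q := Nat.floor_le (by positivity)
  have h2 : ((2 * m * R : ℕ) : ℝ) ≤ 2 * m * r0 * Q := by
    push_cast
    rw [mul_assoc _ r0]
    exact mul_le_mul_of_nonneg_left hR1 (by positivity)
  have h3 : 2 * (2 * m * R) + 1 ≤ Q := by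
    have : ((2 * (2 * m * R) : ℕ) : ℝ) < Q := by
      rw [Nat.cast_mul, Nat.cast_two]
      nlinarith
    exact Nat.cast_lt.1 this
  refine ⟨tb (fun _ => -((2 * m * R : ℕ) : ZMod Q)) (2 * (2 * m * R) + 1),
    tb (fun _ => -((2 * m * R : ℕ) : ZMod Q) - R) (2 * (2 * m * R) + 1 + 2 * R), ?_,
    fun u hu => ?_, fun u hu y hy => ?_, ?_⟩
  · exact card_pos.1 (by rw [card_eq _ h3]; positivity)
  · obtain ⟨v, hv, ev⟩ := mem.1 hu
    refine (sn_le_iff (by positivity)).2 fun i => ?_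
    have e : u i = (((v i : ℤ) - (2 * m * R : ℕ) : ℤ) : ZMod Q) := by
      rw [ev, Int.cast_sub, Int.cast_natCast, Int.cast_natCast]
      ring
    rw [e]
    refine (nm_cast_le _).trans ((div_le_iff₀ hQ).2 (le_trans ?_ h2))
    have h4 : |(v i : ℤ) - (2 * m * R : ℕ)| ≤ ((2 * m * R : ℕ) : ℤ) := by
      have := hv i
      rw [abs_le]
      omega
    rw [← Int.cast_abs]
    exact_mod_cast h4
  · obtain ⟨v, hv, ev⟩ := mem.1 hu
    have h4 : ∀ i, |(y i).valMinAbs| ≤ (R : ℤ) := fun i => by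
      have h5 := (div_le_iff₀ hQ).1 ((nm_le_sn y i).trans hy)
      rw [← Int.cast_abs, Int.abs_eq_natAbs, Int.cast_natCast] at h5
      rw [Int.abs_eq_natAbs]
      exact_mod_cast Nat.le_floor h5
    refine mem.2 ⟨fun i => v i + ((y i).valMinAbs + R).toNat, fun i => ?_, fun i => ?_⟩
    · have h5 := hv i
      have h6 := abs_le.1 (h4 i)
      beta_reduce
      omega
    · have h6 := abs_le.1 (h4 i)
      have e : ((((y i).valMinAbs + R).toNat : ℕ) : ZMod Q) = y i + R := by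
        rw [← Int.cast_natCast, Int.toNat_of_nonneg (by omega), Int.cast_add, ZMod.coe_valMinAbs,
          Int.cast_natCast]
      rw [Pi.add_apply, ev, Nat.cast_add (v i), e]
      ring
  · rw [card_eq _ h3]
    exact (card_le _ _).trans (pow_le (by nlinarith))

end Vale.Agent.P057Z.Fr
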