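import Vale.Agent.P057Z.Fr.Sk

/-! Block Fr: stability of the additive equation on a cube, and the chart. -/

set_option linter.all false

open Finset
open scoped BigOperators

namespace Vale.Agent.P057Z.Fr

namespace ChartA

variable {Q : ℕ} [Fact Q.Prime] {n : ℕ}

theorem near_single (k : Fin n) {a : ℤ} {R : ℕ} (h : |a| ≤ R) :
    Near (Pi.single k (a : ZMod Q) : V Q n) R := by
  refine ⟨Pi.single k a, fun i => ?_, ?_⟩
  · by_cases hi : i = k
    · subst hi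
      simpa using h
    · simp [Pi.single_eq_of_ne hi]
  · funext i
    by_cases hi : i = k
    · subst hi
      simp [cs]
    · simp [cs, Pi.single_eq_of_ne hi]

/-- the part of `v` supported on `s` -/
def pr (Q : ℕ) (v : Fin n → ℤ) (s : Finset (Fin n)) : V Q n :=
  cs Q fun k => if k ∈ s then v k else 0

theorem near_pr {v : Fin n → ℤ} {R : ℕ} (h : ∀ i, |v i| ≤ R) (s : Finset (Fin n)) :
    Near (pr Q v s) R := by
  refine ⟨_, fun i => ?_, rfl⟩
  by_cases hi : i ∈ s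
  · simpa [hi] using h i
  · simp [hi]

theorem pr_empty (v : Fin n → ℤ) : pr Q v ∅ = 0 := by
  funext i
  simp [pr, cs]

theorem pr_univ (v : Fin n → ℤ) : pr Q v univ = cs Q v := by
  funext i
  simp [pr, cs]

theorem pr_insert (v : Fin n → ℤ) {s : Finset (Fin n)} {k : Fin n} (hk : k ∉ s) :
    pr Q v (insert k s) = Pi.single k (v k : ZMod Q) + pr Q v s := by
  funext i
  by_cases hi : i = k
  · subst hi
    simp [pr, cs, hk]
  · simp [pr, cs, hi]

theorem map_eq {n' : ℕ} (P : V Q n' →ₗ[ZMod Q] V Q n) (v : Fin n' → ℤ) :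
    P (cs Q v) = ∑ m, (v m : ZMod Q) • P (Pi.single m 1) := by
  have : (cs Q v : V Q n') = ∑ m, (v m : ZMod Q) • (Pi.single m 1 : V Q n') := by
    funext i
    simp [cs, Finset.sum_apply, Pi.single_apply]
  rw [this, map_sum]
  simp only [map_smul]

theorem near_map {n' T0 TP T5 : ℕ} {P : V Q n' →ₗ[ZMod Q] V Q n} (hP : SmallMap P T0)
    (hT : n' * (T0 * TP) ≤ T5) {a : V Q n'} (ha : Near a TP) : Near (P a) T5 := by
  obtain ⟨v, hv, rfl⟩ := ha
  choose w hw hw' using hP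
  refine ⟨fun i => ∑ m, v m * w m i, fun i => ?_, ?_⟩
  · calc |∑ m, v m * w m i| ≤ ∑ m, |v m * w m i| := abs_sum_le_sum_abs _ _
      _ ≤ ∑ _m : Fin n', (TP : ℤ) * T0 := by
        refine sum_le_sum fun m _ => ?_
        rw [abs_mul]
        exact mul_le_mul (hv m) (hw m i) (abs_nonneg _) (by positivity)
      _ = ((n' * (T0 * TP) : ℕ) : ℤ) := by
        simp only [sum_const, card_univ, Fintype.card_fin, nsmul_eq_mul]
        push_cast
        ring
      _ ≤ T5 := by exact_mod_cast hT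
  · rw [map_eq]
    funext i
    simp [cs, hw', Finset.sum_apply]

theorem nm_map {n' TP : ℕ} {P : V Q n' →ₗ[ZMod Q] V Q n} {θ : V Q n} {c : ℝ} (hc : 0 ≤ c)
    (hθ : ∀ m, nm (θ ⬝ᵥ P (Pi.single m 1)) ≤ c) {a : V Q n'} (ha : Near a TP) :
    nm (θ ⬝ᵥ P a) ≤ n' * (TP * c) := by
  obtain ⟨v, hv, rfl⟩ := ha
  rw [map_eq, dotProduct_sum]
  refine (nm_sum _ _).trans ?_
  calc ∑ m, nm (θ ⬝ᵥ ((v m : ZMod Q) • P (Pi.single m 1))) ≤ ∑ _m : Fin n', (TP : ℝ) * c := by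
        refine sum_le_sum fun m _ => ?_
        rw [dotProduct_smul, smul_eq_mul]
        refine (nm_int_mul _ _).trans (mul_le_mul ?_ (hθ m) (nm_nonneg _) (by positivity))
        exact_mod_cast hv m
    _ = n' * (TP * c) := by simp

theorem rel6 {ξ : V Q n → V Q n} {S : Finset (V Q n)} {a1 a2 a3 a4 a5 a6 b1 b2 b3 b4 b5 b6 : V Q n}
    (ha : a1 ∈ S ∧ a2 ∈ S ∧ a3 ∈ S ∧ a4 ∈ S ∧ a5 ∈ S ∧ a6 ∈ S)
    (hb : b1 ∈ S ∧ b2 ∈ S ∧ b3 ∈ S ∧ b4 ∈ S ∧ b5 ∈ S ∧ b6 ∈ S)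
    (h : a1 + a2 + a3 + a4 + a5 + a6 = b1 + b2 + b3 + b4 + b5 + b6) :
    ξ a1 + ξ a2 + ξ a3 + ξ a4 + ξ a5 + ξ a6 - (ξ b1 + ξ b2 + ξ b3 + ξ b4 + ξ b5 + ξ b6) ∈
      Rel ξ S 6 := by
  refine ⟨![a1, a2, a3, a4, a5, a6], ![b1, b2, b3, b4, b5, b6], fun i => ?_, fun i => ?_, ?_, ?_⟩
  · fin_cases i
    exacts [ha.1, ha.2.1, ha.2.2.1, ha.2.2.2.1, ha.2.2.2.2.1, ha.2.2.2.2.2]
  · fin_cases i
    exacts [hb.1, hb.2.1, hb.2.2.1, hb.2.2.2.1, hb.2.2.2.2.1, hb.2.2.2.2.2]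
  · rw [Fin.sum_univ_six, Fin.sum_univ_six]
    exact h
  · rw [Fin.sum_univ_six, Fin.sum_univ_six]
    rfl

end ChartA

open ChartA in
theorem hun (h : HU1) : HUN := by
  intro Q _ n m φ R r hr hφ
  have h1 : ∀ (k : Fin n) (i : Fin m), ∃ t : ZMod Q, ∀ a : ℤ, |a| ≤ R →
      nm (φ (Pi.single k (a : ZMod Q)) i - (a : ZMod Q) * t) ≤ 5 * r + (R : ℝ) / Q := by
    intro k i
    refine h Q (fun a => φ (Pi.single k (a : ZMod Q)) i) R r hr fun a b ha hb hab => ?_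
    have e : (Pi.single k ((a + b : ℤ) : ZMod Q) : V Q n) =
        Pi.single k (a : ZMod Q) + Pi.single k (b : ZMod Q) := by
      rw [Int.cast_add, Pi.single_add]
    have := hφ _ _ (near_single k ha) (near_single k hb) (e ▸ near_single k hab) i
    rw [← e] at this
    exact this
  choose t ht using h1
  refine ⟨Matrix.vecMulLinear (Matrix.of t), ?_⟩
  rintro a ⟨v, hv, rfl⟩ i
  have h0 : nm (φ 0 i) ≤ r := by
    have hn : Near (0 : V Q n) R := pr_empty (Q := Q) v ▸ near_pr hv ∅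
    have := hφ 0 0 hn hn (by rwa [add_zero]) i
    rw [add_zero, sub_self, zero_sub, Pi.neg_apply, nm_neg] at this
    exact this
  have hr0 : 0 ≤ r := (nm_nonneg _).trans h0
  have h2 : ∀ s : Finset (Fin n), nm (φ (pr Q v s) i - ∑ k ∈ s, φ (Pi.single k (v k : ZMod Q)) i) ≤
      (s.card + 1) * r := by
    intro s
    induction s using Finset.induction_on with
    | empty => simpa [pr_empty] using h0
    | insert k s hk ih =>
      have h3 := hφ _ _ (near_single k (hv k)) (near_pr hv s)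
        (pr_insert (Q := Q) v hk ▸ near_pr hv (insert k s)) i
      rw [sum_insert hk, card_insert_of_notMem hk, pr_insert v hk]
      have e : φ (Pi.single k (v k : ZMod Q) + pr Q v s) i - (φ (Pi.single k (v k : ZMod Q)) i +
          ∑ k ∈ s, φ (Pi.single k (v k : ZMod Q)) i) =
          (φ (Pi.single k (v k : ZMod Q) + pr Q v s) - φ (Pi.single k (v k : ZMod Q)) -
            φ (pr Q v s)) i + (φ (pr Q v s) i - ∑ k ∈ s, φ (Pi.single k (v k : ZMod Q)) i) := by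
        simp only [Pi.sub_apply]
        ring
      rw [e]
      refine (nm_add _ _).trans ?_
      push_cast
      linarith
  have h3 := h2 univ
  rw [pr_univ, card_univ, Fintype.card_fin] at h3
  have e : (φ (cs Q v) - Matrix.vecMulLinear (Matrix.of t) (cs Q v)) i =
      (φ (cs Q v) i - ∑ k, φ (Pi.single k (v k : ZMod Q)) i) +
        ∑ k, (φ (Pi.single k (v k : ZMod Q)) i - (v k : ZMod Q) * t k i) := by
    rw [sum_sub_distrib]
    simp [Matrix.vecMul, dotProduct, cs]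
  rw [e]
  refine (nm_add _ _).trans ?_
  have h4 : nm (∑ k, (φ (Pi.single k (v k : ZMod Q)) i - (v k : ZMod Q) * t k i)) ≤
      n * (5 * r + (R : ℝ) / Q) := by
    refine (nm_sum _ _).trans ((sum_le_sum fun k _ => ht k i (v k) (hv k)).trans ?_)
    rw [sum_const, card_univ, Fintype.card_fin, nsmul_eq_mul]
  have h5 : (0 : ℝ) ≤ (R : ℝ) / Q := by positivity
  nlinarith

open ChartA in
theorem chart (h : HUN) : CHART := by
  intro Q _ n ξ S Θ T5 Tc W τB r hr0 hr hT5 hW hτ hrel hB n' T0 TP P hn hTP hTc hP hΘ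
  have hq : (0 : ℝ) ≤ (Tc : ℝ) / Q := by positivity
  by_cases hT0 : T0 = 0
  · refine ⟨0, fun x _ x' _ a ha hx i => ?_⟩
    obtain ⟨w, hw, hw'⟩ := near_map (T5 := 0) hP (by simp [hT0]) ha
    have h0 : P a = 0 := by
      rw [hw']
      funext j
      have := hw j
      simp only [Nat.cast_zero, abs_nonpos_iff] at this
      simp [cs, this]
    rw [h0, sub_eq_zero] at hx
    rw [hx]
    simp only [sub_self, LinearMap.zero_apply, Pi.zero_apply, nm_zero]
    positivity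
  have hTP' : TP ≤ Tc := le_trans (Nat.le_mul_of_pos_left _ (Nat.pos_of_ne_zero hT0)) hTc
  have hW' : (0 : ℝ) < W := by exact_mod_cast hW
  have hTP0 : (0 : ℝ) < TP := by exact_mod_cast hTP
  have hn' : (n' : ℝ) ≤ n := by exact_mod_cast hn
  have h1 : ∀ a : V Q n', ∃ s1 s2 s3 s4 : V Q n, Near a TP →
      s1 ∈ S ∧ s2 ∈ S ∧ s3 ∈ S ∧ s4 ∈ S ∧ P a = s1 + s2 - s3 - s4 := by
    intro a
    by_cases ha : Near a TP
    · obtain ⟨s1, h1, s2, h2, s3, h3, s4, h4, h5⟩ := hB (P a)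
        (near_map hP ((Nat.mul_le_mul hn hTc).trans hT5) ha) fun θ hθ => by
          refine (nm_map (by positivity) (hΘ θ hθ) ha).trans ?_
          have e : (n' : ℝ) * (TP * (1 / ((W : ℝ) * TP))) = n' / W := by field_simp
          rw [e, div_le_iff₀ hW']
          linarith
      exact ⟨s1, s2, s3, s4, fun _ => ⟨h1, h2, h3, h4, h5⟩⟩
    · exact ⟨0, 0, 0, 0, fun hh => absurd hh ha⟩
  choose s1 s2 s3 s4 hs using h1
  obtain ⟨Ξ, hΞ⟩ := h Q n' n (fun a => ξ (s1 a) + ξ (s2 a) - ξ (s3 a) - ξ (s4 a)) TP r hr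
    fun a b ha hb hab i => by
      obtain ⟨a1, a2, a3, a4, a5⟩ := hs a ha
      obtain ⟨b1, b2, b3, b4, b5⟩ := hs b hb
      obtain ⟨c1, c2, c3, c4, c5⟩ := hs _ hab
      have h2 := hrel _ (rel6 (ξ := ξ) ⟨c1, c2, a3, a4, b3, b4⟩ ⟨c3, c4, a1, a2, b1, b2⟩ (by
        rw [map_add, a5, b5] at c5
        linear_combination (exp := 1) -c5))
      refine le_trans (le_of_eq ?_) ((nm_le_sn _ i).trans h2)
      refine congrArg nm (congrFun ?_ i)
      abel
  refine ⟨Ξ, fun x hx x' hx' a ha hxa i => ?_⟩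
  obtain ⟨a1, a2, a3, a4, a5⟩ := hs a ha
  have h2 := (nm_le_sn _ i).trans (hrel _ (rel6 (ξ := ξ) ⟨hx, a3, a4, hx, hx, hx⟩
    ⟨hx', a1, a2, hx, hx, hx⟩ (by
      rw [a5] at hxa
      linear_combination (exp := 1) hxa)))
  have h3 := hΞ a ha i
  have e : ξ x - ξ x' - Ξ a = (ξ x + ξ (s3 a) + ξ (s4 a) + ξ x + ξ x + ξ x -
      (ξ x' + ξ (s1 a) + ξ (s2 a) + ξ x + ξ x + ξ x)) +
      (ξ (s1 a) + ξ (s2 a) - ξ (s3 a) - ξ (s4 a) - Ξ a) := by abel
  rw [e, Pi.add_apply]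
  refine (nm_add _ _).trans ?_
  have h4 : (TP : ℝ) / Q ≤ (Tc : ℝ) / Q :=
    div_le_div_of_nonneg_right (by exact_mod_cast hTP') Qpos.le
  have h5 : ((n' : ℝ) + 1) * (6 * r + (TP : ℝ) / Q) ≤ (n + 1) * (6 * r + (Tc : ℝ) / Q) :=
    mul_le_mul (by linarith) (by linarith) (by positivity) (by positivity)
  have h6 : (0 : ℝ) ≤ n * r := by positivity
  nlinarith

end Vale.Agent.P057Z.Fr
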