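import Vale.Agent.P057Z.Fr.Sk

/-! Block Fr, row CSL: from the fibres of the sums to the fibre of the differences over zero. -/

open Finset
open scoped BigOperators

namespace Vale.Agent.P057Z.Fr

namespace Csl

theorem mem_fib {G Y : Type} [AddCommGroup G] [AddCommGroup Y] {g : G → Y} {B : Finset G} {j : ℕ}
    {b : G} (hb : b ∈ B) {s : Fin j → G} (hs : ∀ i, s i ∈ B) :
    g b + ∑ i, g (s i) ∈ Fib g B (j + 1) (b + ∑ i, s i) := by
  refine ⟨Fin.cons b s, fun i => ?_, ?_, ?_⟩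
  · refine Fin.cases ?_ (fun i => ?_) i
    · simpa using hb
    · simpa using hs i
  · simp [Fin.sum_univ_succ]
  · simp [Fin.sum_univ_succ]

end Csl

theorem csl : CSL := by
  intro G Y _ _ _ _ _ N hN B B5 X3 g M r j h5 hB hr hX hF s hs hsep
  choose L hL1 hL2 hL3 using fun c => (hF c).cover hN hr
  have key : ∀ z ∈ s, ∃ σ : G, ∀ b ∈ B, b + σ ∈ X3 ∧ ∃ l : Y × Y,
      l.1 ∈ L (b + σ) ∧ l.2 ∈ L (b + σ) ∧ N (z - (l.1 - l.2)) ≤ 2 * r := by
    intro z hz
    obtain ⟨u, v, hu, hv, huv, rfl⟩ := hs z hz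
    refine ⟨∑ i, u i, fun b hb => ⟨hX b hb u hu, ?_⟩⟩
    obtain ⟨l1, h1, h1'⟩ := hL3 _ _ (Csl.mem_fib (g := g) hb fun i => h5 (hu i))
    obtain ⟨l2, h2, h2'⟩ := hL3 _ _ (Csl.mem_fib (g := g) hb fun i => h5 (hv i))
    rw [← huv] at h2
    refine ⟨(l1, l2), h1, h2, ?_⟩
    have h3 := hN.sub (g b + ∑ i, g (u i) - l1) (g b + ∑ i, g (v i) - l2)
    have h4 : g b + ∑ i, g (u i) - l1 - (g b + ∑ i, g (v i) - l2) =
        ∑ i, g (u i) - ∑ i, g (v i) - (l1 - l2) := by abel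
    rw [h4] at h3
    linarith
  choose! σ hσ using key
  have key2 : ∀ z ∈ s, ∀ b ∈ B, ∃ l : Y × Y,
      l.1 ∈ L (b + σ z) ∧ l.2 ∈ L (b + σ z) ∧ N (z - (l.1 - l.2)) ≤ 2 * r :=
    fun z hz b hb => (hσ z hz b hb).2
  choose! l hl using key2
  have hcard : (s ×ˢ B).card ≤ (X3.sigma fun c => L c ×ˢ L c).card := by
    refine card_le_card_of_injOn (fun p => ⟨p.2 + σ p.1, l p.1 p.2⟩) ?_ ?_
    · rintro ⟨z, b⟩ hp
      rw [mem_coe, mem_product] at hp
      rw [mem_coe, mem_sigma, mem_product]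
      exact ⟨(hσ z hp.1 b hp.2).1, (hl z hp.1 b hp.2).1, (hl z hp.1 b hp.2).2.1⟩
    · rintro ⟨z, b⟩ hp ⟨z', b'⟩ hp' h
      rw [mem_coe, mem_product] at hp hp'
      simp only [Sigma.mk.injEq, heq_eq_eq] at h
      have hz : z = z' := by
        by_contra hne
        have h1 := hsep z hp.1 z' hp'.1 hne
        have h2 := (hl z hp.1 b hp.2).2.2
        have h3 := (hl z' hp'.1 b' hp'.2).2.2
        rw [← h.2, hN.symm] at h3
        have h4 := hN.tri z ((l z b).1 - (l z b).2) z'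
        linarith
      subst hz
      rw [add_right_cancel h.1]
  rw [card_product, card_sigma] at hcard
  have h1 : (s.card : ℝ) * B.card ≤ ∑ c ∈ X3, ((L c).card : ℝ) * (L c).card := by
    simp only [card_product] at hcard
    exact_mod_cast hcard
  have h2 : ∑ c ∈ X3, ((L c).card : ℝ) * (L c).card ≤ M ^ 2 * X3.card := by
    rw [mul_comm, ← nsmul_eq_mul]
    refine sum_le_card_nsmul _ _ _ fun c _ => ?_
    rw [pow_two]
    exact mul_self_le_mul_self (Nat.cast_nonneg _) (hL2 c)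
  have h3 : (0 : ℝ) < B.card := by exact_mod_cast hB.card_pos
  rw [le_div_iff₀ h3]
  exact h1.trans h2

end Vale.Agent.P057Z.Fr
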