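import Vale.Agent.P057Z.Fr.Sk

/-! Block Fr: stability of the additive equation on an interval. -/

open Finset

namespace Vale.Agent.P057Z.Fr

namespace Hu1

variable {Q : ℕ} [Fact Q.Prime]

theorem lift {k : ℤ} (h : 2 * |(k : ℝ)| < Q) : |(k : ℝ)| ≤ nm (k : ZMod Q) * Q := by
  rw [nm, div_mul_cancel₀ _ Qpos.ne']
  have h1 : 2 * k.natAbs < Q := by
    rw [← Int.cast_abs, Int.abs_eq_natAbs] at h
    exact_mod_cast h
  have h2 : k.natAbs ≤ ((k : ZMod Q).valMinAbs).natAbs :=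
    ZMod.natAbs_min_of_le_div_two Q _ _ (by simp) (by omega)
  rw [← Int.cast_abs, ← Int.cast_abs, Int.abs_eq_natAbs, Int.abs_eq_natAbs]
  exact_mod_cast h2

theorem vma (u : ZMod Q) : |(u.valMinAbs : ℝ)| = nm u * Q := by
  rw [nm, div_mul_cancel₀ _ Qpos.ne']

theorem hyers {g : ℕ → ℝ} {R : ℕ} {ρ : ℝ} (h : ∀ a b, a + b ≤ R → |g (a + b) - g a - g b| ≤ ρ)
    (h0 : 0 < R → g R = 0) {a : ℕ} (ha : a ≤ R) : |g a| ≤ 3 * ρ := by
  obtain ⟨c, hc, hm⟩ := exists_max_image (range (R + 1)) (fun a => |g a|) ⟨0, by simp⟩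
  have hc' : c ≤ R := Nat.lt_succ_iff.1 (mem_range.1 hc)
  have hm' : ∀ a ≤ R, |g a| ≤ |g c| := fun a ha => hm a (mem_range.2 (Nat.lt_succ_of_le ha))
  have dbl : ∀ a, a + a ≤ R → 2 * |g a| ≤ |g c| + ρ := fun a ha => by
    have k1 := abs_le.1 (h a a ha)
    have k2 := abs_le.1 (hm' _ ha)
    rcases abs_cases (g a) with k | k <;> linarith [k.1]
  have r0 : 0 ≤ ρ := (abs_nonneg _).trans (h 0 0 (Nat.zero_le _))
  refine (hm' a ha).trans ?_
  rcases le_or_gt (c + c) R with k | k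
  · linarith [dbl c k]
  · have k1 := h c (R - c) (by omega)
    have k2 := dbl (R - c) (by omega)
    rw [Nat.add_sub_cancel' hc', h0 (by omega)] at k1
    have k3 := abs_le.1 k1
    have k4 := le_abs_self (g (R - c))
    have k5 := neg_abs_le (g (R - c))
    rcases abs_cases (g c) with k | k <;> linarith [k.1]

/-- the integer lift -/
def psi (φ : ℤ → ZMod Q) : ℕ → ℤ
  | 0 => (φ 0).valMinAbs
  | a + 1 => psi φ a + (φ 1).valMinAbs + (φ (a + 1) - φ a - φ 1).valMinAbs

theorem psi_cast (φ : ℤ → ZMod Q) (a : ℕ) : (psi φ a : ZMod Q) = φ a := by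
  induction a with
  | zero => simp [psi]
  | succ a ih => simp [psi, ih]

end Hu1

open Hu1 in
theorem hu1 : HU1 := by
  intro Q _ φ R r hr h
  have q0 : (0 : ℝ) < Q := Qpos
  have hn : ∀ a b : ℕ, a + b ≤ R → nm (φ (a + b) - φ a - φ b) ≤ r := fun a b hab =>
    h a b (by rw [Nat.abs_cast]; omega) (by rw [Nat.abs_cast]; omega)
      (by rw [abs_of_nonneg (by positivity)]; omega)
  have z0 : nm (φ 0) ≤ r := by simpa [nm_neg] using hn 0 0 (Nat.zero_le _)
  have he : ∀ c : ℕ, c + 1 ≤ R → |((φ (c + 1) - φ c - φ 1).valMinAbs : ℝ)| ≤ r * Q := fun c hc => by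
    rw [vma]
    exact mul_le_mul_of_nonneg_right (hn c 1 hc) q0.le
  have hD : ∀ a b : ℕ, a + b ≤ R → |(psi φ (a + b) : ℝ) - psi φ a - psi φ b| ≤ r * Q := by
    intro a b
    induction b with
    | zero =>
      intro _
      rw [add_zero, sub_self, zero_sub, abs_neg, psi, vma]
      exact mul_le_mul_of_nonneg_right z0 q0.le
    | succ b ih =>
      intro hab
      have k1 := abs_le.1 (ih (by omega))
      have k2 := abs_le.1 (he (a + b) hab)
      have k3 := abs_le.1 (he b (by omega))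
      have k4 : |(psi φ (a + (b + 1)) : ℝ) - psi φ a - psi φ (b + 1)| ≤ 3 * (r * Q) := by
        rw [← add_assoc, psi, psi, abs_le]
        push_cast at k2 k3 ⊢
        constructor <;> linarith [k1.1, k1.2, k2.1, k2.2, k3.1, k3.2]
      have k5 := lift (Q := Q) (k := psi φ (a + (b + 1)) - psi φ a - psi φ (b + 1)) (by
        push_cast
        nlinarith)
      have k6 := hn a (b + 1) hab
      simp only [Int.cast_sub, psi_cast, Nat.cast_add a] at k5
      exact k5.trans (mul_le_mul_of_nonneg_right k6 q0.le)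
  set s : ℝ := psi φ R / R with hs
  have hg : ∀ a ≤ R, |(psi φ a : ℝ) - a * s| ≤ 3 * (r * Q) := fun a ha =>
    hyers (g := fun a => (psi φ a : ℝ) - a * s) (fun a b hab => by
      refine le_trans (le_of_eq (congrArg abs ?_)) (hD a b hab)
      push_cast
      ring) (fun h0 => by
      have : (R : ℝ) ≠ 0 := Nat.cast_ne_zero.2 h0.ne'
      rw [hs]
      field_simp
      ring) ha
  have pos : ∀ a : ℕ, a ≤ R → nm (φ a - (a : ZMod Q) * ((round s : ℤ) : ZMod Q)) ≤ 3 * r + (R : ℝ) / Q := by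
    intro a ha
    have k1 := nm_cast_le (Q := Q) (psi φ a - a * round s)
    simp only [Int.cast_sub, Int.cast_mul, Int.cast_natCast, psi_cast] at k1
    refine k1.trans ?_
    rw [div_le_iff₀ q0, add_mul, div_mul_cancel₀ _ q0.ne']
    have k2 := abs_le.1 (hg a ha)
    have k3 := abs_le.1 (abs_sub_round s)
    have k4 : (a : ℝ) ≤ R := Nat.cast_le.2 ha
    have k5 : (0 : ℝ) ≤ a := Nat.cast_nonneg a
    rw [abs_le]
    constructor <;> nlinarith [k2.1, k2.2, k3.1, k3.2]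
  have r0 : 0 ≤ r := (nm_nonneg _).trans z0
  refine ⟨((round s : ℤ) : ZMod Q), fun a ha => ?_⟩
  obtain ⟨c, rfl | rfl⟩ := a.eq_nat_or_neg
  · have k := pos c (by rw [Nat.abs_cast] at ha; omega)
    rw [Int.cast_natCast]
    linarith
  · rw [abs_neg, Nat.abs_cast] at ha
    have k := pos c (by omega)
    have k1 := h c (-c) (by rwa [Nat.abs_cast]) (by rwa [abs_neg, Nat.abs_cast]) (by simp)
    rw [add_neg_cancel] at k1
    have e : φ (-c) - ((-c : ℤ) : ZMod Q) * ((round s : ℤ) : ZMod Q) =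
        φ 0 - (φ 0 - φ c - φ (-c)) - (φ c - (c : ZMod Q) * ((round s : ℤ) : ZMod Q)) := by
      push_cast
      ring
    rw [e]
    linarith [nm_sub (φ 0 - (φ 0 - φ c - φ (-c))) (φ c - (c : ZMod Q) * ((round s : ℤ) : ZMod Q)),
      nm_sub (φ 0) (φ 0 - φ c - φ (-c))]

end Vale.Agent.P057Z.Fr
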