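import Vale.Agent.P057Z.Fr.Sk
import Mathlib.Combinatorics.Additive.PluenneckeRuzsa

/-! Block Fr: the inequality of Petridis for the fattened graph. -/

open Finset
open scoped Pointwise

namespace Vale.Agent.P057Z.Fr

namespace PluH

/-- a subset whose iterated sums grow slowly -/
theorem petr {H : Type} [AddCommGroup H] [DecidableEq H] (A B : Finset H) (hA : A.Nonempty)
    (K : ℝ) (hK : (#(A + B) : ℝ) ≤ K * #A) :
    ∃ X ⊆ A, X.Nonempty ∧ ∀ j : ℕ, (#(X + j • B) : ℝ) ≤ K ^ j * #X := by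
  have hA' : A ∈ A.powerset.erase ∅ := mem_erase_of_ne_of_mem hA.ne_empty (mem_powerset_self _)
  obtain ⟨X, hX, hmin⟩ :=
    exists_min_image (A.powerset.erase ∅) (fun C => (#(C + B) : ℝ) / #C) ⟨A, hA'⟩
  rw [mem_erase, mem_powerset, ← nonempty_iff_ne_empty] at hX
  have pA : (0 : ℝ) < #A := Nat.cast_pos.2 hA.card_pos
  have pX : (0 : ℝ) < #X := Nat.cast_pos.2 hX.1.card_pos
  have h1 : ∀ A' ⊆ X, #(X + B) * #A' ≤ #(A' + B) * #X := by
    intro A' hA'
    obtain rfl | h := A'.eq_empty_or_nonempty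
    · simp
    have := (div_le_div_iff₀ pX (Nat.cast_pos.2 h.card_pos)).1
      (hmin _ (mem_erase_of_ne_of_mem h.ne_empty (mem_powerset.2 (hA'.trans hX.2))))
    exact_mod_cast this
  have h2 : (#(X + B) : ℝ) ≤ K * #X :=
    (div_le_iff₀ pX).1 ((hmin _ hA').trans ((div_le_iff₀ pA).2 hK))
  have hK0 : 0 ≤ K := nonneg_of_mul_nonneg_left ((Nat.cast_nonneg _).trans h2) pX
  refine ⟨X, hX.2, hX.1, fun j => ?_⟩
  induction j with
  | zero => simp
  | succ j ih =>
    have h3 : (#(j • B + X + B) : ℝ) * #X ≤ #(X + B) * #(j • B + X) := by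
      exact_mod_cast pluennecke_petridis_inequality_add _ h1
    rw [show j • B + X + B = X + (j + 1) • B by rw [succ_nsmul, add_left_comm, add_assoc],
      add_comm (j • B) X] at h3
    refine le_of_mul_le_mul_right (h3.trans ?_) pX
    calc (#(X + B) : ℝ) * #(X + j • B) ≤ (K * #X) * (K ^ j * #X) :=
          mul_le_mul h2 ih (Nat.cast_nonneg _) (mul_nonneg hK0 pX.le)
      _ = _ := by ring

theorem sum_mem {H : Type} [AddCommGroup H] [DecidableEq H] {B : Finset H} {j : ℕ}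
    {b : Fin j → H} (hb : ∀ i, b i ∈ B) : ∑ i, b i ∈ j • B :=
  mem_nsmul.2 ⟨fun i => ⟨b i, hb i⟩, List.sum_ofFn⟩

end PluH

theorem plu : PLU := by
  intro G Y _ _ _ _ _ N hN A B X1 U U' f g M r0 r1 j hA hU hr0 hX1 hr1 hU' hc hF c s hs hsep
  choose L _ hL hL' using fun c => (hF c).cover hN hr0
  have hM : 0 ≤ M := (Nat.cast_nonneg _).trans (hL c)
  have pA : (0 : ℝ) < #A := Nat.cast_pos.2 hA.card_pos
  set Gf : Finset (G × Y) := (A ×ˢ U).image fun p => (p.1, f p.1 + p.2) with hGf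
  set Gg : Finset (G × Y) := B.image fun b => (b, g b) with hGg
  have mf : ∀ x ∈ Gf, x.1 ∈ A ∧ x.2 - f x.1 ∈ U := fun x hx => by
    obtain ⟨p, hp, rfl⟩ := mem_image.1 hx
    simpa using hp
  have c1 : #Gf = #A * #U := by
    rw [hGf, card_image_of_injective, card_product]
    rintro ⟨a, u⟩ ⟨a', u'⟩ h
    obtain ⟨rfl, h2⟩ := Prod.mk.inj h
    exact Prod.ext rfl (add_left_cancel h2)
  have c2 : (#(Gf + Gg) : ℝ) ≤ 2 * M * #X1 / #A * #Gf := by
    have h1 : Gf + Gg ⊆ X1.biUnion fun c => (L c ×ˢ U').image fun p => (c, p.1 + p.2) := by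
      intro x hx
      obtain ⟨y, hy, z, hz, rfl⟩ := mem_add.1 hx
      obtain ⟨b, hb, rfl⟩ := mem_image.1 hz
      obtain ⟨h2, h3⟩ := mf y hy
      obtain ⟨l, hl, h4⟩ := hL' (y.1 + b) _ ⟨y.1, h2, b, hb, rfl, rfl⟩
      refine mem_biUnion.2 ⟨_, hX1 _ h2 _ hb, mem_image.2
        ⟨(l, _), mem_product.2 ⟨hl, hU' _ h3 _ h4⟩, Prod.ext rfl ?_⟩⟩
      simp only [Prod.snd_add]
      abel
    have h2 : (#(Gf + Gg) : ℝ) ≤ ∑ c ∈ X1, (#((L c ×ˢ U').image fun p => (c, p.1 + p.2)) : ℝ) := by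
      exact_mod_cast (card_le_card h1).trans card_biUnion_le
    have h3 := sum_le_card_nsmul X1
      (fun c => (#((L c ×ˢ U').image fun p => (c, p.1 + p.2)) : ℝ)) (M * (2 * #U)) fun c _ => by
      have h4 : (#((L c ×ˢ U').image fun p => (c, p.1 + p.2)) : ℝ) ≤ #(L c) * #U' := by
        exact_mod_cast card_image_le.trans_eq (card_product _ _)
      exact h4.trans (mul_le_mul (hL c) (by exact_mod_cast hc) (Nat.cast_nonneg _) hM)
    refine (h2.trans h3).trans_eq ?_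
    rw [c1, nsmul_eq_mul]
    push_cast
    field_simp
  obtain ⟨X, hX, hXn, hj⟩ := PluH.petr Gf Gg ((hA.product hU).image _) _ c2
  have c3 : #(X ×ˢ s) ≤ #(X + j • Gg) := by
    refine card_le_card_of_injOn (fun p => p.1 + (c, p.2)) ?_ ?_
    · rintro ⟨x, z⟩ hp
      obtain ⟨h1, h2⟩ := mem_product.1 hp
      obtain ⟨b, hb, rfl, rfl⟩ := hs z h2
      refine add_mem_add h1 ?_
      have := PluH.sum_mem (B := Gg) (b := fun i => (b i, g (b i))) fun i =>
        mem_image_of_mem _ (hb i)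
      rwa [← Prod.mk.eta (p := ∑ i, _), Prod.fst_sum, Prod.snd_sum] at this
    · rintro ⟨x, z⟩ hp ⟨y, w⟩ hq he
      obtain ⟨h1, h2⟩ := mem_product.1 hp
      obtain ⟨h3, h4⟩ := mem_product.1 hq
      have e1 : x.1 = y.1 := add_right_cancel (congrArg Prod.fst he)
      have e2 : x.2 + z = y.2 + w := congrArg Prod.snd he
      obtain rfl : z = w := by
        by_contra hne
        have h5 := hsep z h2 w h4 hne
        have h6 := hN.sub (y.2 - f y.1) (x.2 - f x.1)
        rw [show y.2 - f y.1 - (x.2 - f x.1) = z - w by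
          rw [e1, sub_sub_sub_cancel_right, sub_eq_sub_iff_add_eq_add, ← e2, add_comm]] at h6
        linarith [hr1 _ (mf x (hX h1)).2, hr1 _ (mf y (hX h3)).2]
      exact Prod.ext (add_right_cancel he) rfl
  rw [card_product, mul_comm] at c3
  refine le_of_mul_le_mul_right (le_trans ?_ (hj j)) (Nat.cast_pos.2 hXn.card_pos)
  exact_mod_cast c3

end Vale.Agent.P057Z.Fr
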