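import Vale.Agent.P057Z.Fr.Sk

/-! Block Fr: a large subset on which all relations of six terms nearly hold. -/

open Finset

namespace Vale.Agent.P057Z.Fr

namespace RndH

variable {Q : ℕ} [Fact Q.Prime] {m : ℕ}

theorem cell {a b : ZMod Q} (h : 1200 * a.val / Q = 1200 * b.val / Q) : nm (a - b) ≤ 1 / 1200 := by
  have hQ : 0 < Q := (Fact.out : Q.Prime).pos
  have h1 := nm_cast_le (Q := Q) ((a.val : ℤ) - b.val)
  simp only [Int.cast_sub, Int.cast_natCast, ZMod.natCast_zmod_val] at h1
  refine h1.trans ?_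
  have h2 := Nat.div_add_mod (1200 * a.val) Q
  have h3 := Nat.div_add_mod (1200 * b.val) Q
  have h4 := Nat.mod_lt (1200 * a.val) hQ
  have h5 := Nat.mod_lt (1200 * b.val) hQ
  rw [h] at h2
  have h6 : (1200 * a.val : ℝ) ≤ 1200 * b.val + Q := by exact_mod_cast (by omega)
  have h7 : (1200 * b.val : ℝ) ≤ 1200 * a.val + Q := by exact_mod_cast (by omega)
  rw [div_le_iff₀ Qpos, abs_le]
  constructor <;> linarith

/-- the character with the entries s -/
def chi (s : Fin m → ℕ) : V Q m →+ ZMod Q where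
  toFun y := ∑ i, (s i : ZMod Q) * y i
  map_zero' := by simp
  map_add' x y := by simp [mul_add, sum_add_distrib]

theorem chi_le {s : Fin m → ℕ} {T : ℕ} (hs : ∀ i, s i < T) (y : V Q m) :
    nm (chi s y) ≤ m * T * sn y := by
  refine (nm_sum univ fun i => (s i : ZMod Q) * y i).trans
    ((sum_le_card_nsmul _ _ (T * sn y) fun i _ => ?_).trans_eq ?_)
  · have h1 := nm_int_mul (Q := Q) (s i) (y i)
    simp only [Int.cast_natCast, Nat.abs_cast] at h1
    exact h1.trans (mul_le_mul (Nat.cast_le.2 (hs i).le) (nm_le_sn y i) (nm_nonneg _)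
      (Nat.cast_nonneg _))
  · simp [mul_assoc]

end RndH

open RndH

theorem rnd (h : SEP) : RND := by
  intro Q _ m G _ _ g B M r T' t hT hr hm hM hF
  have hQ : 0 < Q := (Fact.out : Q.Prime).pos
  obtain ⟨L, -, hL, hL'⟩ := hF.cover sz_sn hr
  obtain ⟨s, hs, hs'⟩ := h Q m T' t (L.filter fun l => 1 / (T' : ℝ) < sn l) hT
    (lt_of_le_of_lt (mul_le_mul_of_nonneg_right
      ((Nat.cast_le.2 (card_filter_le _ _)).trans hL) (by positivity)) hM)
    fun l hl => (mem_filter.1 hl).2
  set φ : G → Fin t → ℕ := fun b j => 1200 * (chi (s j) (g b)).val / Q with hφ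
  obtain ⟨c, -, hc⟩ := exists_max_image (Fintype.piFinset fun _ : Fin t => range 1200)
    (fun c => (B.filter fun b => φ b = c).card) ⟨fun _ => 0, by simp⟩
  refine ⟨B.filter fun b => φ b = c, filter_subset _ _, ?_, ?_⟩
  · have := card_le_mul_card_image_of_maps_to (f := φ) (s := B) (fun b _ =>
      Fintype.mem_piFinset.2 fun j => mem_range.2 (by
        rw [Nat.div_lt_iff_lt_mul hQ]
        exact Nat.mul_lt_mul_of_pos_left (ZMod.val_lt _) (by norm_num))) _ hc
    simpa [mul_comm] using this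
  · rintro z ⟨u, v, hu, hv, huv, hz⟩
    obtain ⟨l, hl, h1⟩ := hL' z
      ⟨u, v, fun i => (mem_filter.1 (hu i)).1, fun i => (mem_filter.1 (hv i)).1, huv, hz⟩
    have h2 : sn l ≤ 1 / (T' : ℝ) := by
      by_contra h2
      obtain ⟨j, hj⟩ := hs' l (mem_filter.2 ⟨hl, not_le.1 h2⟩)
      have h3 : nm (chi (s j) z) ≤ 1 / 200 := by
        rw [hz, ← sum_sub_distrib, map_sum]
        refine (nm_sum _ _).trans ((sum_le_card_nsmul _ _ (1 / 1200) fun i _ => ?_).trans_eq ?_)
        · rw [map_sub]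
          exact cell (congrFun ((mem_filter.1 (hu i)).2.trans (mem_filter.1 (hv i)).2.symm) j)
        · simp
          norm_num
      have h4 := (chi_le (hs j) (z - l)).trans (mul_le_mul_of_nonneg_left h1 (by positivity))
      have h5 := nm_sub (chi (s j) z) (chi (s j) (z - l))
      rw [← map_sub, sub_sub_cancel] at h5
      have h6 : 1 / 10 ≤ nm (chi (s j) l) := hj
      linarith
    have h3 := sz_sn.add l (z - l)
    rw [add_sub_cancel] at h3
    linarith

end Vale.Agent.P057Z.Fr
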