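import Vale.Agent.P057Z.Fr.Sk

/-! Block Fr, row SEP: few characters with small entries separate the far points from zero. -/

open Finset

namespace Vale.Agent.P057Z.Fr

namespace SepH

variable {Q : ℕ} [Fact Q.Prime] {m T : ℕ}

theorem step (hT : 8 ≤ T) {u : ZMod Q} (hu : 1 / (T : ℝ) < nm u) :
    ∃ k : ℕ, 3 * k ≤ T ∧ 1 / 5 ≤ nm ((k : ZMod Q) * u) := by
  by_cases h : 1 / 5 ≤ nm u
  · exact ⟨1, by omega, by simpa using h⟩
  have hT' : (8 : ℝ) ≤ T := by exact_mod_cast hT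
  have h0 : 0 < nm u := lt_trans (by positivity) hu
  have h1 := Nat.le_ceil (1 / (5 * nm u))
  have h2 := Nat.ceil_lt_add_one (a := 1 / (5 * nm u)) (by positivity)
  generalize ⌈1 / (5 * nm u)⌉₊ = k at h1 h2
  rw [div_le_iff₀ (by positivity)] at h1
  rw [← sub_lt_iff_lt_add, lt_div_iff₀ (by positivity)] at h2
  rw [div_lt_iff₀ (by positivity)] at hu
  have hQ := Qpos (Q := Q)
  refine ⟨k, ?_, ?_⟩
  · have : (3 * k : ℝ) ≤ T := by nlinarith
    exact_mod_cast this
  have h3 : |(k * u.valMinAbs : ℝ)| / Q = k * nm u := by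
    rw [abs_mul, Nat.abs_cast, mul_div_assoc, nm]
  have h4 : |(k * u.valMinAbs : ℝ)| * 2 < Q := by
    rw [← lt_div_iff₀ two_pos, ← div_lt_div_iff_of_pos_right hQ, h3, div_right_comm,
      div_self hQ.ne']
    nlinarith
  have h5 : |(k * u.valMinAbs : ℤ)| * 2 < Q := by exact_mod_cast h4
  have h6 : ((k : ZMod Q) * u).valMinAbs = k * u.valMinAbs :=
    (ZMod.valMinAbs_spec _ _).2 ⟨by simp, by
      have := le_abs_self (k * u.valMinAbs : ℤ)
      have := neg_abs_le (k * u.valMinAbs : ℤ)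
      constructor <;> omega⟩
  rw [nm, h6, Int.cast_mul, Int.cast_natCast, h3]
  linarith

theorem line (hT : 8 ≤ T) {u : ZMod Q} (hu : 1 / (T : ℝ) < nm u) (c : ZMod Q) :
    T ≤ 3 * ∑ x : Fin T, if 1 / 10 ≤ nm (((x : ℕ) : ZMod Q) * u + c) then 1 else 0 := by
  obtain ⟨k, h1, h2⟩ := step hT hu
  rw [Fin.sum_univ_eq_sum_range fun x => if 1 / 10 ≤ nm ((x : ZMod Q) * u + c) then 1 else 0,
    ← card_filter]
  have h3 := card_filter_add_card_filter_not (s := range (T - k))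
    fun x : ℕ => 1 / 10 ≤ nm ((x : ZMod Q) * u + c)
  have h4 := card_le_card (filter_subset_filter (fun x : ℕ => 1 / 10 ≤ nm ((x : ZMod Q) * u + c))
    (range_subset_range.2 (Nat.sub_le T k)))
  have h5 : #{x ∈ range (T - k) | ¬ 1 / 10 ≤ nm (((x : ℕ) : ZMod Q) * u + c)} ≤
      #{x ∈ range T | 1 / 10 ≤ nm (((x : ℕ) : ZMod Q) * u + c)} := by
    refine card_le_card_of_injOn (· + k) (fun x hx => ?_) (add_left_injective k).injOn
    simp only [coe_filter, mem_range, Set.mem_ofPred_eq, not_le] at hx ⊢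
    have := nm_sub (((x + k : ℕ) : ZMod Q) * u + c) (x * u + c)
    rw [show ((x + k : ℕ) : ZMod Q) * u + c - (x * u + c) = k * u by push_cast; ring] at this
    exact ⟨by omega, by linarith [hx.2]⟩
  rw [card_range] at h3
  omega

theorem cube (hT : 8 ≤ T) {l : V Q m} (hl : 1 / (T : ℝ) < sn l) :
    ∑ _s : Fin m → Fin T, 1 ≤
      3 * ∑ s : Fin m → Fin T, if 1 / 10 ≤ nm (∑ i, ((s i : ℕ) : ZMod Q) * l i) then 1 else 0 := by
  obtain ⟨i, hi⟩ : ∃ i, 1 / (T : ℝ) < nm (l i) := by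
    by_contra! h
    exact hl.not_ge ((sn_le_iff (by positivity)).2 h)
  set g : (Fin m → Fin T) → ℕ := fun s =>
    if 1 / 10 ≤ nm (∑ i, ((s i : ℕ) : ZMod Q) * l i) then 1 else 0
  have h1 : Function.Involutive fun p : (Fin m → Fin T) × Fin T =>
      (Function.update p.1 i p.2, p.1 i) := fun p => by simp
  have h2 : ∑ p : (Fin m → Fin T) × Fin T, g (Function.update p.1 i p.2) = ∑ p : _ × Fin T, g p.1 :=
    Fintype.sum_equiv h1.toPerm _ _ fun _ => rfl
  rw [Fintype.sum_prod_type, Fintype.sum_prod_type] at h2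
  simp only [sum_const, card_univ, Fintype.card_fin, smul_eq_mul, ← mul_sum] at h2
  refine Nat.le_of_mul_le_mul_left ?_ (show 0 < T by omega)
  rw [mul_left_comm, ← h2, mul_sum, mul_sum]
  refine sum_le_sum fun s _ => ?_
  refine (mul_one T).le.trans ((line hT hi (∑ j ∈ univ.erase i, (s j : ℕ) * l j)).trans_eq ?_)
  refine congrArg _ (sum_congr rfl fun x _ => ?_)
  have h3 : ∑ j, ((Function.update s i x j : ℕ) : ZMod Q) * l j =
      (x : ℕ) * l i + ∑ j ∈ univ.erase i, ((s j : ℕ) : ZMod Q) * l j := by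
    rw [← add_sum_erase _ _ (mem_univ i), Function.update_self]
    exact congrArg _ (sum_congr rfl fun j hj => by rw [Function.update_of_ne (ne_of_mem_erase hj)])
  simp only [g, h3]

theorem mean (hT : 8 ≤ T) {L : Finset (V Q m)} (hL : ∀ l ∈ L, 1 / (T : ℝ) < sn l) :
    ∃ s : Fin m → Fin T, #L ≤ 3 * #{l ∈ L | 1 / 10 ≤ nm (∑ i, ((s i : ℕ) : ZMod Q) * l i)} := by
  have : Nonempty (Fin T) := ⟨⟨0, by omega⟩⟩
  refine (exists_le_of_sum_le univ_nonempty ?_).imp fun s h => h.2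
  simp only [card_filter, ← mul_sum]
  rw [sum_comm, mul_sum]
  refine le_trans (le_of_eq ?_) (sum_le_sum fun l hl => cube hT (hL l hl))
  simp [mul_comm]

end SepH

open SepH

theorem sep : SEP := by
  intro Q _ m T t L hT
  revert L
  induction t with
  | zero =>
    intro L h _
    obtain rfl : L = ∅ := by simpa using h
    exact ⟨Fin.elim0, fun j => j.elim0, by simp⟩
  | succ t ih =>
    intro L h hL
    obtain ⟨s, hs⟩ := SepH.mean hT hL
    have h1 := card_filter_add_card_filter_not (s := L)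
      fun l => 1 / 10 ≤ nm (∑ i, ((s i : ℕ) : ZMod Q) * l i)
    obtain ⟨r, h2, h3⟩ := ih {l ∈ L | ¬ 1 / 10 ≤ nm (∑ i, ((s i : ℕ) : ZMod Q) * l i)} (by
      refine lt_of_le_of_lt ?_ h
      rw [pow_succ', ← mul_assoc]
      refine mul_le_mul_of_nonneg_right ?_ (by positivity)
      have : 3 * #{l ∈ L | ¬ 1 / 10 ≤ nm (∑ i, ((s i : ℕ) : ZMod Q) * l i)} ≤ 2 * #L := by omega
      have := (Nat.cast_le (α := ℝ)).2 this
      push_cast at this
      linarith) fun l hl => hL l (mem_filter.1 hl).1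
    refine ⟨Fin.cons (fun i => s i) r, Fin.cases (fun i => (s i).2) h2, fun l hl => ?_⟩
    by_cases k : 1 / 10 ≤ nm (∑ i, ((s i : ℕ) : ZMod Q) * l i)
    · exact ⟨0, k⟩
    · obtain ⟨j, hj⟩ := h3 l (mem_filter.2 ⟨hl, k⟩)
      exact ⟨j.succ, hj⟩

end Vale.Agent.P057Z.Fr
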