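import Vale.Agent.P057Z.Fr.Sk2

/-! Block Fr: a dense piece in one tile. -/

set_option linter.all false

open Finset
open scoped BigOperators

namespace Vale.Agent.P057Z.Fr

namespace Tile

variable {Q : ℕ} [Fact Q.Prime] {n : ℕ}

theorem val_lt {M : ℕ} {y : V Q n} (hy : y ∈ bx Q n M) (hM : M ≤ Q) (i : Fin n) :
    (y i).val < M := by
  obtain ⟨v, hv, rfl⟩ := mem_bx.1 hy
  rw [ZMod.val_cast_of_lt ((hv i).trans_le hM)]
  exact hv i

theorem mem_tile {Tt : ℕ} (h : 1 ≤ Tt) (y : V Q n) :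
    y ∈ tile Q n Tt fun i => (y i).val / Tt := by
  rw [tile_eq, mem_tb, mem_bx]
  refine ⟨fun i => (y i).val % Tt, fun i => Nat.mod_lt _ h, funext fun i => ?_⟩
  rw [Pi.sub_apply, sub_eq_iff_eq_add', ← Nat.cast_add, Nat.div_add_mod, ZMod.natCast_zmod_val]

theorem close {T M : ℕ} {x y y' : V Q n} (h1 : y ∈ tb x T) (h2 : y' ∈ tb x T)
    (h3 : y ∈ bx Q n M) (h4 : y' ∈ bx Q n M) (hQ : T + M ≤ Q) (i : Fin n) :
    (y i).val < (y' i).val + T := by
  obtain ⟨v, hv, e⟩ := mem_bx.1 (mem_tb.1 h1)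
  obtain ⟨v', hv', e'⟩ := mem_bx.1 (mem_tb.1 h2)
  have a1 := val_lt h3 (by omega) i
  have a2 := val_lt h4 (by omega) i
  have a3 := hv i
  have a4 := hv' i
  have b1 : y i - x i = v i := congrFun e i
  have b2 : y' i - x i = v' i := congrFun e' i
  have b3 : (((y i).val + v' i : ℕ) : ZMod Q) = (((y' i).val + v i : ℕ) : ZMod Q) := by
    rw [Nat.cast_add, Nat.cast_add, ZMod.natCast_zmod_val, ZMod.natCast_zmod_val, ← b1, ← b2]
    ring
  rw [ZMod.natCast_eq_natCast_iff', Nat.mod_eq_of_lt (by omega),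
    Nat.mod_eq_of_lt (by omega)] at b3
  omega

end Tile

open Tile in
theorem tile_of (hB : BOX) : TILE := by
  intro Q _ n x T Tt I S h1 h2 hT hI h4 hQ
  classical
  rcases S.eq_empty_or_nonempty with rfl | hS
  · exact ⟨fun _ => 0, fun _ => hI, by simp⟩
  let jf : V Q n → Fin n → ℕ := fun y i => (y i).val / Tt
  choose m hm hmin using fun i : Fin n => exists_min_image S (fun y => (y i).val) hS
  obtain ⟨j, hj, hmax⟩ := exists_max_image (S.image jf)
    (fun j => (S.filter fun y => jf y = j).card) (hS.image jf)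
  obtain ⟨y0, hy0, e0⟩ := mem_image.1 hj
  refine ⟨j, fun i => ?_, ?_⟩
  · rw [← e0]
    exact (Nat.div_lt_iff_lt_mul hT).2 (val_lt (h2 hy0) (by omega) i)
  have c1 := card_le_mul_card_image (f := jf) S _ hmax
  have c2 : (S.image jf).card ≤ (T / Tt + 2) ^ n := by
    refine (card_le_card (t := Fintype.piFinset fun i =>
      Icc ((m i i).val / Tt) ((m i i).val / Tt + T / Tt + 1)) fun k hk => ?_).trans ?_
    · obtain ⟨y, hy, rfl⟩ := mem_image.1 hk
      refine Fintype.mem_piFinset.2 fun i => mem_Icc.2 ⟨Nat.div_le_div_right (hmin i y hy), ?_⟩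
      refine (Nat.div_le_div_right
        (close (h1 hy) (h1 (hm i)) (h2 hy) (h2 (hm i)) hQ i).le).trans ?_
      rw [Nat.add_div hT]
      split_ifs <;> omega
    · rw [Fintype.card_piFinset]
      refine le_of_eq ((prod_congr rfl fun i _ => ?_).trans (Fin.prod_const n (T / Tt + 2)))
      rw [Nat.card_Icc, add_assoc, add_assoc, Nat.add_sub_cancel_left]
  have c3 : (S.filter fun y => jf y = j).card ≤ (S ∩ tile Q n Tt j).card :=
    card_le_card fun y hy => mem_inter.2 ⟨(mem_filter.1 hy).1,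
      (mem_filter.1 hy).2 ▸ mem_tile hT y⟩
  have c4 : (T / Tt + 2) ^ n * Tt ^ n ≤ 2 * T ^ n := by
    rw [← mul_pow]
    refine (Nat.pow_le_pow_left ?_ n).trans
      ((hB Q n).2.2.2.1 T (2 * Tt) (le_of_eq_of_le (by ring) h4))
    rw [add_mul]
    exact Nat.add_le_add_right (Nat.div_mul_le_self _ _) _
  calc S.card * Tt ^ n ≤ (S ∩ tile Q n Tt j).card * (T / Tt + 2) ^ n * Tt ^ n :=
        Nat.mul_le_mul_right _ (c1.trans (Nat.mul_le_mul c3 c2))
    _ ≤ _ := by
        rw [mul_assoc, mul_comm]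
        exact Nat.mul_le_mul_right _ c4

end Vale.Agent.P057Z.Fr
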