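import Vale.Agent.P057Z.Fr.Asm
import Vale.Agent.P057Z.Fr.List
import Vale.Agent.P057Z.Fr.Plu
import Vale.Agent.P057Z.Fr.Csl
import Vale.Agent.P057Z.Fr.Sep
import Vale.Agent.P057Z.Fr.Rnd
import Vale.Agent.P057Z.Fr.Box
import Vale.Agent.P057Z.Fr.Hu1
import Vale.Agent.P057Z.Fr.Chart
import Vale.Agent.P057Z.Fr.Bog
import Vale.Agent.P057Z.Fr.Tile

/-! Block Fr: energy gives a chart. -/

namespace Vale.Agent.P057Z.Fr

theorem fr (hA : Km.APB) : FR :=
  fr_of list plu csl (rnd sep) fat box (bog hA box) (tile_of box) (chart (hun hu1))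

end Vale.Agent.P057Z.Fr
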