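import Vale.Agent.P057Z.Fr.Sk

/-! Block Fr: from a dense relation to a dense set on which relations of six terms nearly hold. -/

set_option linter.all false

open Finset
open scoped BigOperators

namespace Vale.Agent.P057Z.Fr

theorem num_M2 (L : ℝ) (hL : 1 ≤ L) :
    ((294912 * Real.exp L ^ 6) ^ 7) ^ 2 * (16 * Real.exp L) ≤ Real.exp (270 * L) := by
  have h1 : (294912 : ℝ) ≤ Real.exp 13 := by
    have h := Real.exp_one_gt_d9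
    have : Real.exp 13 = Real.exp 1 ^ 13 := by rw [← Real.exp_nat_mul]; norm_num
    rw [this]
    calc (294912 : ℝ) ≤ 2.7 ^ 13 := by norm_num
      _ ≤ Real.exp 1 ^ 13 := pow_le_pow_left₀ (by norm_num) (by linarith) 13
  have h2 : (16 : ℝ) ≤ Real.exp 3 := by
    have h := Real.exp_one_gt_d9
    have : Real.exp 3 = Real.exp 1 ^ 3 := by rw [← Real.exp_nat_mul]; norm_num
    rw [this]
    calc (16 : ℝ) ≤ 2.7 ^ 3 := by norm_num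
      _ ≤ Real.exp 1 ^ 3 := pow_le_pow_left₀ (by norm_num) (by linarith) 3
  have hK : 0 < Real.exp L := Real.exp_pos L
  calc ((294912 * Real.exp L ^ 6) ^ 7) ^ 2 * (16 * Real.exp L)
      ≤ ((Real.exp 13 * Real.exp L ^ 6) ^ 7) ^ 2 * (Real.exp 3 * Real.exp L) := by gcongr
    _ = Real.exp (185 + 85 * L) := by
        rw [← Real.exp_nat_mul, ← Real.exp_add, ← Real.exp_nat_mul, ← Real.exp_nat_mul,
          ← Real.exp_add, ← Real.exp_add]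
        congr 1
        push_cast
        ring
    _ ≤ Real.exp (270 * L) := Real.exp_le_exp.2 (by linarith)

theorem num_t (L : ℝ) (hL : 1 ≤ L) : ∃ t : ℕ, Real.exp (270 * L) * (2 / 3) ^ t < 1 ∧
    16 * Real.exp L * 1200 ^ t ≤ Real.exp (7000 * L) := by
  refine ⟨3 * (⌈270 * L⌉₊ + 1), ?_, ?_⟩
  · have h1 : (2 / 3 : ℝ) ^ 3 ≤ Real.exp (-1) := by
      have := Real.exp_neg_one_gt_d9
      norm_num at this ⊢
      linarith
    have h2 : 270 * L ≤ ⌈270 * L⌉₊ := Nat.le_ceil _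
    calc Real.exp (270 * L) * (2 / 3) ^ (3 * (⌈270 * L⌉₊ + 1))
        = Real.exp (270 * L) * ((2 / 3) ^ 3) ^ (⌈270 * L⌉₊ + 1) := by rw [pow_mul]
      _ ≤ Real.exp (270 * L) * Real.exp (-1) ^ (⌈270 * L⌉₊ + 1) := by gcongr
      _ = Real.exp (270 * L - (⌈270 * L⌉₊ + 1)) := by
          rw [← Real.exp_nat_mul, ← Real.exp_add]
          congr 1
          push_cast
          ring
      _ < 1 := Real.exp_lt_one_iff.2 (by linarith)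
  · have h := Real.exp_one_gt_d9
    have h1 : (1200 : ℝ) ≤ Real.exp 8 := by
      have : Real.exp 8 = Real.exp 1 ^ 8 := by rw [← Real.exp_nat_mul]; norm_num
      rw [this]
      calc (1200 : ℝ) ≤ 2.7 ^ 8 := by norm_num
        _ ≤ Real.exp 1 ^ 8 := pow_le_pow_left₀ (by norm_num) (by linarith) 8
    have h2 : (16 : ℝ) ≤ Real.exp 3 := by
      have : Real.exp 3 = Real.exp 1 ^ 3 := by rw [← Real.exp_nat_mul]; norm_num
      rw [this]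
      calc (16 : ℝ) ≤ 2.7 ^ 3 := by norm_num
        _ ≤ Real.exp 1 ^ 3 := pow_le_pow_left₀ (by norm_num) (by linarith) 3
    have h3 : (⌈270 * L⌉₊ : ℝ) < 270 * L + 1 := Nat.ceil_lt_add_one (by linarith)
    have hK : 0 < Real.exp L := Real.exp_pos L
    calc 16 * Real.exp L * 1200 ^ (3 * (⌈270 * L⌉₊ + 1))
        ≤ Real.exp 3 * Real.exp L * Real.exp 8 ^ (3 * (⌈270 * L⌉₊ + 1)) := by gcongr
      _ = Real.exp (3 + L + 24 * (⌈270 * L⌉₊ + 1)) := by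
          rw [← Real.exp_nat_mul, ← Real.exp_add, ← Real.exp_add]
          congr 1
          push_cast
          ring
      _ ≤ Real.exp (7000 * L) := Real.exp_le_exp.2 (by linarith)

theorem num_T (m : ℕ) (ρ : ℝ) (hρ : 0 < ρ) (h : 100000 * ((m : ℝ) + 1) ^ 2 * ρ ≤ 1) :
    ∃ T' : ℕ, 8 ≤ T' ∧ (m : ℝ) * T' * (96 * (m + 1) * ρ) ≤ 1 / 100 ∧
      1 / (T' : ℝ) + 96 * (m + 1) * ρ ≤ 20000 * ((m : ℝ) + 1) ^ 2 * ρ := by
  have hm : (0 : ℝ) ≤ m := Nat.cast_nonneg m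
  set x : ℝ := 9600 * ((m : ℝ) + 1) ^ 2 * ρ with hx
  have hx0 : 0 < x := by positivity
  have hx1 : 8 * x ≤ 1 := by nlinarith
  have h8 : (8 : ℝ) ≤ 1 / x := by rw [le_div_iff₀ hx0]; exact hx1
  have hfl : (⌊1 / x⌋₊ : ℝ) ≤ 1 / x := Nat.floor_le (by positivity)
  have hfl' : 1 / x < (⌊1 / x⌋₊ : ℝ) + 1 := Nat.lt_floor_add_one _
  have h8' : 8 ≤ ⌊1 / x⌋₊ := Nat.le_floor (by exact_mod_cast h8)
  have h8r : (8 : ℝ) ≤ ⌊1 / x⌋₊ := by exact_mod_cast h8'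
  refine ⟨⌊1 / x⌋₊, h8', ?_, ?_⟩
  · have h1 : (⌊1 / x⌋₊ : ℝ) * x ≤ 1 := by rwa [le_div_iff₀ hx0] at hfl
    have h2 : (m : ℝ) * ⌊1 / x⌋₊ * (96 * (m + 1) * ρ) ≤ (m + 1) * ⌊1 / x⌋₊ * (96 * (m + 1) * ρ) := by
      gcongr
      linarith
    have h3 : ((m : ℝ) + 1) * ⌊1 / x⌋₊ * (96 * (m + 1) * ρ) = ⌊1 / x⌋₊ * x / 100 := by
      rw [hx]; ring
    linarith
  · have h1 : 1 / (⌊1 / x⌋₊ : ℝ) ≤ 2 * x := by
      rw [div_le_iff₀ (by linarith)]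
      rw [div_lt_iff₀ hx0] at hfl'
      nlinarith
    have h2 : 96 * ((m : ℝ) + 1) * ρ ≤ 96 * ((m : ℝ) + 1) ^ 2 * ρ := by
      gcongr
      nlinarith
    have h3 : 0 ≤ ((m : ℝ) + 1) ^ 2 * ρ := by positivity
    nlinarith

theorem num_nat (n Q T1 T2 T3 T4 : ℕ) (hT1 : T1 ≤ Q)
    (h12 : 2 * (n + 1) * T2 ≤ T1) (h23 : 2 * (n + 1) * T3 ≤ T2) (h34 : 12 * (n + 1) * T4 ≤ T3)
    (h4 : 1 ≤ T4) : 1 ≤ T3 ∧ 1 ≤ T2 ∧ 1 ≤ T1 ∧ T2 ≤ Q ∧ T3 ≤ Q ∧ T4 ≤ Q ∧ 2 * n * T2 ≤ T1 ∧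
      2 * n * T3 ≤ T2 ∧ 2 * n * T4 ≤ T3 ∧ 2 * n * (6 * T4) ≤ T3 := by
  have e1 : 2 * (n + 1) * T2 = 2 * n * T2 + 2 * T2 := by ring
  have e2 : 2 * (n + 1) * T3 = 2 * n * T3 + 2 * T3 := by ring
  have e3 : 12 * (n + 1) * T4 = 6 * (2 * n * T4) + 12 * T4 := by ring
  have e4 : 2 * n * (6 * T4) = 6 * (2 * n * T4) := by ring
  rw [e1] at h12
  rw [e2] at h23
  rw [e3] at h34
  rw [e4]
  omega

theorem num_pos {a b c : ℝ} (ha : 0 < a) (hc : 0 ≤ c) (h : a ≤ b * c) : 0 < c := by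
  rcases hc.lt_or_eq with h1 | h1
  · exact h1
  · rw [← h1, mul_zero] at h
    linarith

theorem num_den {a a' k x y : ℝ} (ha : 0 < a) (ha' : 0 ≤ a') (hk : 0 ≤ k) (h1 : a ≤ k * x)
    (h2 : x * a' ≤ 2 * a * y) : a' ≤ 2 * k * y := by
  have h3 : a * a' ≤ a * (2 * k * y) := by
    calc a * a' ≤ k * x * a' := by gcongr
      _ = k * (x * a') := by ring
      _ ≤ k * (2 * a * y) := by gcongr
      _ = a * (2 * k * y) := by ring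
  exact le_of_mul_le_mul_left h3 ha

theorem num_rad (m : ℕ) (ρ : ℝ) (hρ : 0 < ρ) (h : 100000 * ((m : ℝ) + 1) ^ 2 * ρ ≤ 1) :
    4 * (m : ℝ) * (6 * ρ) < 1 ∧ 4 * (2 * (2 * (m : ℝ) * (6 * ρ))) ≤ 96 * (m + 1) * ρ := by
  have hm0 : (0 : ℝ) ≤ m := Nat.cast_nonneg m
  have h1 : 0 ≤ (m : ℝ) * ρ := by positivity
  have h2 : 0 ≤ (m : ℝ) ^ 2 * ρ := by positivity
  constructor <;> nlinarith

variable {Q : ℕ} [Fact Q.Prime] {n : ℕ}

open Classical in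
theorem core (hL : LIST) (hP : PLU) (hC : CSL) (hR : RND) (hF : FAT) (hB : BOX) {m : ℕ}
    (f g ζ : V Q n → V Q m) (U : Finset (V Q n)) (y0 : V Q n) (T1 T2 T3 T4 : ℕ) (ρ L : ℝ)
    (hL1 : 1 ≤ L) (hρ : 0 < ρ) (hρ1 : 100000 * ((m : ℝ) + 1) ^ 2 * ρ ≤ 1) (hT1 : T1 ≤ Q)
    (h12 : 2 * (n + 1) * T2 ≤ T1) (h23 : 2 * (n + 1) * T3 ≤ T2) (h34 : 12 * (n + 1) * T4 ≤ T3)
    (h4 : 1 ≤ T4)
    (hcount : (T1 : ℝ) ^ n * (T2 : ℝ) ^ n ≤ Real.exp L * ((tb (0 : V Q n) T1 ×ˢ tb y0 T2).filter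
      (fun p => p.2 ∈ U ∧ sn (f p.1 + g p.2 - ζ (p.1 + p.2)) ≤ ρ)).card) :
    ∃ (x : V Q n) (S : Finset (V Q n)), S ⊆ U ∧ S ⊆ tb x T4 ∧ S ⊆ tb y0 T2 ∧
      (T4 : ℝ) ^ n ≤ Real.exp (7000 * L) * S.card ∧
      ∀ z ∈ Rel g S 6, sn z ≤ 20000 * ((m : ℝ) + 1) ^ 2 * ρ := by
  obtain ⟨b1, b2, b3, b4, b5, -⟩ := hB Q n
  set K := Real.exp L with hKdef
  have hK1 : 1 ≤ K := Real.one_le_exp (by linarith)
  have hK0 : 0 < K := by linarith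
  obtain ⟨hT3, hT2, hT1', hT2Q, hT3Q, hT4Q, g12, g23, g34, g36⟩ :=
    num_nat n Q T1 T2 T3 T4 hT1 h12 h23 h34 h4
  obtain ⟨hr1, hr2⟩ := num_rad m ρ hρ hρ1
  have c1 : ((tb (0 : V Q n) T1).card : ℝ) = (T1 : ℝ) ^ n := by exact_mod_cast (b1 0 T1).2 hT1
  have c2 : ((tb y0 T2).card : ℝ) = (T2 : ℝ) ^ n := by exact_mod_cast (b1 y0 T2).2 hT2Q
  have p1 : (0 : ℝ) < (T1 : ℝ) ^ n := by positivity
  have p2 : (0 : ℝ) < (T2 : ℝ) ^ n := by positivity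
  have p3 : (0 : ℝ) < (T3 : ℝ) ^ n := by positivity
  have p4 : (0 : ℝ) < (T4 : ℝ) ^ n := by positivity
  have n1 : (tb (0 : V Q n) T1).Nonempty := by
    rw [← card_pos]; exact_mod_cast (c1 ▸ p1 : (0 : ℝ) < (tb (0 : V Q n) T1).card)
  have n2 : (tb y0 T2).Nonempty := by
    rw [← card_pos]; exact_mod_cast (c2 ▸ p2 : (0 : ℝ) < (tb y0 T2).card)
  obtain ⟨A', hA', B', hB', cA, cB, hU, hfew⟩ := hL (V Q n) (V Q m) sn sz_sn (tb 0 T1) (tb y0 T2)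
    f g ζ (fun a b => b ∈ U ∧ sn (f a + g b - ζ (a + b)) ≤ ρ) K ρ hK1 n1 n2 (fun a b h => h.2)
    (by rw [c1, c2]; exact hcount)
  rw [c1] at cA
  rw [c2] at cB
  obtain ⟨x3, hx3⟩ := b5 y0 T2 T3 B' hB' hT3Q g23
  set B2 := B' ∩ tb x3 T3 with hB2
  have hx3' : (B'.card : ℝ) * (T3 : ℝ) ^ n ≤ 2 * (T2 : ℝ) ^ n * B2.card := by exact_mod_cast hx3
  have cB2 : (T3 : ℝ) ^ n ≤ 8 * K * B2.card :=
    (num_den p2 p3.le (by positivity) cB hx3').trans (le_of_eq (by ring))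
  have pB2 : (0 : ℝ) < B2.card := num_pos p3 (Nat.cast_nonneg _) cB2
  have pA : (0 : ℝ) < A'.card := num_pos p1 (Nat.cast_nonneg _) cA
  set X1 := tb ((0 : V Q n) + y0) (T1 + T2) with hX1
  set X2 := tb (y0 - x3 - fun _ => (T3 : ZMod Q)) (T2 + T3) with hX2
  have cX1 : (X1.card : ℝ) ≤ 2 * (T1 : ℝ) ^ n := by
    exact_mod_cast ((b1 _ _).1).trans (b4 T1 T2 g12)
  have cX2 : (X2.card : ℝ) ≤ 2 * (T2 : ℝ) ^ n := by
    exact_mod_cast ((b1 _ _).1).trans (b4 T2 T3 g23)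
  have hX1m : ∀ a ∈ tb (0 : V Q n) T1, ∀ b ∈ tb y0 T2, a + b ∈ X1 :=
    fun a ha b hb => (b2 _ _ _ _ _ _ ha hb).1
  have f0 : ∀ c, Few sn (12288 * K ^ 5) (6 * ρ) (Fib2 f g A' B2 c) := by
    intro c
    refine (hfew B2 inter_subset_left X1 X2 hX1m
      (fun b' hb' b hb => (b2 _ _ _ _ _ _ hb' (mem_inter.1 hb).2).2) c).mono ?_ le_rfl
      (fun _ h => h)
    rw [c1, c2, div_le_iff₀ (by positivity)]
    calc 3072 * K ^ 5 * X1.card * X2.card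
        ≤ 3072 * K ^ 5 * (2 * (T1 : ℝ) ^ n) * (2 * (T2 : ℝ) ^ n) := by gcongr
      _ = 12288 * K ^ 5 * ((T1 : ℝ) ^ n * (T2 : ℝ) ^ n) := by ring
  have hm0 : (0 : ℝ) ≤ m := Nat.cast_nonneg m
  obtain ⟨W, W', nW, hW1, hW2, hW3⟩ := hF Q m (6 * ρ) (by positivity) hr1
  have f1 : ∀ c, Few sn ((294912 * K ^ 6) ^ 7) (2 * (2 * m * (6 * ρ))) (Fib g B2 (6 + 1) c) := by
    intro c
    refine (hP (V Q n) (V Q m) sn sz_sn A' B2 X1 W W' f g (12288 * K ^ 5) (6 * ρ)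
      (2 * m * (6 * ρ)) 7 (by rw [← card_pos]; exact_mod_cast pA) nW (by positivity)
      (fun a ha b hb => hX1m a (hA' ha) b (hB' (mem_inter.1 hb).1)) hW1 hW2 hW3 f0 c).mono ?_
      le_rfl (fun _ h => h)
    refine pow_le_pow_left₀ (by positivity) ?_ 7
    rw [div_le_iff₀ pA]
    calc 2 * (12288 * K ^ 5) * X1.card ≤ 2 * (12288 * K ^ 5) * (2 * (6 * K * A'.card)) := by
          have := cX1.trans (mul_le_mul_of_nonneg_left cA (by norm_num))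
          gcongr
      _ = 294912 * K ^ 6 * A'.card := by ring
  obtain ⟨x4, hx4⟩ := b5 x3 T3 T4 B2 inter_subset_right hT4Q g34
  set B5 := B2 ∩ tb x4 T4 with hB5
  have hx4' : (B2.card : ℝ) * (T4 : ℝ) ^ n ≤ 2 * (T3 : ℝ) ^ n * B5.card := by exact_mod_cast hx4
  have cB5 : (T4 : ℝ) ^ n ≤ 16 * K * B5.card :=
    (num_den p3 p4.le (by positivity) cB2 hx4').trans (le_of_eq (by ring))
  set X3 := tb (x3 + 6 • x4) (T3 + 6 * T4) with hX3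
  have cX3 : (X3.card : ℝ) ≤ 2 * (T3 : ℝ) ^ n := by
    exact_mod_cast ((b1 _ _).1).trans (b4 T3 (6 * T4) g36)
  have f2 : Few sn (Real.exp (270 * L)) (96 * (m + 1) * ρ) (Rel g B5 6) := by
    refine (hC (V Q n) (V Q m) sn sz_sn B2 B5 X3 g _ _ 6 inter_subset_left
      (by rw [← card_pos]; exact_mod_cast pB2) (by positivity)
      (fun b hb s hs => b3 x4 b x3 T3 T4 6 s (mem_inter.1 hb).2 (fun i => (mem_inter.1 (hs i)).2))
      f1).mono ?_ hr2 (fun _ h => h)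
    refine le_trans ?_ (num_M2 L hL1)
    rw [div_le_iff₀ pB2]
    calc ((294912 * K ^ 6) ^ 7) ^ 2 * X3.card
        ≤ ((294912 * K ^ 6) ^ 7) ^ 2 * (2 * (8 * K * B2.card)) := by
          have := cX3.trans (mul_le_mul_of_nonneg_left cB2 (by norm_num))
          gcongr
      _ = ((294912 * K ^ 6) ^ 7) ^ 2 * (16 * K) * B2.card := by ring
  obtain ⟨t, ht1, ht2⟩ := num_t L hL1
  obtain ⟨T', hT'1, hT'2, hT'3⟩ := num_T m ρ hρ hρ1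
  obtain ⟨S, hS, cS, hrel⟩ := hR Q m (V Q n) g B5 _ _ T' t hT'1 (by positivity) hT'2 ht1 f2
  have hSB' : S ⊆ B' := fun s hs => (mem_inter.1 (mem_inter.1 (hS hs)).1).1
  refine ⟨x4, S, fun s hs => ?_, fun s hs => (mem_inter.1 (hS hs)).2, fun s hs => hB' (hSB' hs),
    ?_, fun z hz => (hrel z hz).trans hT'3⟩
  · obtain ⟨a, ha⟩ := hU s (hSB' hs)
    exact ha.1
  · have cS' : (B5.card : ℝ) ≤ 1200 ^ t * S.card := by exact_mod_cast cS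
    calc (T4 : ℝ) ^ n ≤ 16 * K * (1200 ^ t * S.card) := cB5.trans (by gcongr)
      _ = 16 * K * 1200 ^ t * S.card := by ring
      _ ≤ Real.exp (7000 * L) * S.card := by gcongr

end Vale.Agent.P057Z.Fr
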