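import Vale.Agent.P057Z.Fr.Sk

/-! Block Fr: two more rows. -/

set_option linter.all false

open Finset
open scoped BigOperators

namespace Vale.Agent.P057Z.Fr

/-- a Bohr box of small rank in 2S - 2S -/
def BOG : Prop :=
  ∃ X0 : ℝ, ∀ X Z : ℝ, X0 ≤ X → 1 ≤ Z → Z ^ 3 ≤ Real.exp X →
    ∀ (Q : ℕ) [Fact Q.Prime] (n : ℕ) (S : Finset (V Q n)) (x0 : V Q n) (T4 T' Ta T6 : ℕ),
      (n : ℝ) ≤ Z → 1 ≤ T6 → T6 * Real.exp (10 * X) ≤ Ta → 8 * (n + 1) * Ta ≤ T' →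
      4 * (n + 1) * T' ≤ T4 → T4 ≤ Q → S ⊆ tb x0 T4 → 4 * (T4 : ℝ) ^ n ≤ Real.exp X * S.card →
      ∃ Θ : Finset (V Q n), (Θ.card : ℝ) ≤ X ^ 6 ∧ Bog S Θ T6 (Real.exp (-(3 * X)))

/-- a dense piece in one tile -/
def TILE : Prop :=
  ∀ (Q : ℕ) [Fact Q.Prime] (n : ℕ) (x : V Q n) (T Tt I : ℕ) (S : Finset (V Q n)),
    S ⊆ tb x T → S ⊆ bx Q n (I * Tt) → 1 ≤ Tt → 1 ≤ I → 4 * n * Tt ≤ T → T + I * Tt ≤ Q →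
    ∃ j : Fin n → ℕ, (∀ i, j i < I) ∧ S.card * Tt ^ n ≤ 2 * T ^ n * (S ∩ tile Q n Tt j).card

end Vale.Agent.P057Z.Fr
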