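import Vale.Agent.P057Z.Sk
import Vale.Agent.P057Z.Fr.Sk2
import Vale.Agent.P057Z.Fr.Core

/-! Block Fr: the statement FR from the rows. -/

set_option linter.all false

open Finset
open scoped BigOperators

namespace Vale.Agent.P057Z.Fr

theorem num_W (C : ℕ) (Y Z W : ℝ) (n : ℕ) (hC : 100 ≤ C) (hCY : (C : ℝ) ≤ Y) (hYZ : Y ≤ Z)
    (hn : (n : ℝ) ≤ Z) (hW : Real.exp (Z ^ C) ≤ W) :
    200000 * ((n : ℝ) + 1) ^ 3 ≤ W ∧ ((n : ℝ) + 1) * Real.exp (10 * (7002 * Y)) ≤ W ∧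
      (7002 * Y) ^ 6 ≤ Y ^ C ∧ 7001 * Y ≤ Y ^ C := by
  have hC' : (100 : ℝ) ≤ C := by exact_mod_cast hC
  have hY : (100 : ℝ) ≤ Y := hC'.trans hCY
  have hZ : (100 : ℝ) ≤ Z := hY.trans hYZ
  have h1 : Z ^ 4 ≤ Z ^ C := pow_le_pow_right₀ (by linarith) (by omega)
  have h2 : 1000000 * Z ≤ Z ^ 4 := by
    have : (100 : ℝ) ^ 3 ≤ Z ^ 3 := pow_le_pow_left₀ (by norm_num) hZ 3
    calc 1000000 * Z = 100 ^ 3 * Z := by norm_num
      _ ≤ Z ^ 3 * Z := by gcongr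
      _ = Z ^ 4 := by ring
  have h3 : Real.exp (1000000 * Z) ≤ W := (Real.exp_le_exp.2 (h2.trans h1)).trans hW
  have h4 : (n : ℝ) + 1 ≤ Real.exp Z := (by linarith : (n : ℝ) + 1 ≤ Z + 1).trans
    (Real.add_one_le_exp Z)
  have h5 : (200000 : ℝ) ≤ Real.exp (3 * Z) := by
    have : Real.exp (3 * Z) = Real.exp Z ^ 3 := by rw [← Real.exp_nat_mul]; norm_num
    rw [this]
    have h6 : (101 : ℝ) ≤ Real.exp Z := by linarith [Real.add_one_le_exp Z]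
    calc (200000 : ℝ) ≤ 101 ^ 3 := by norm_num
      _ ≤ Real.exp Z ^ 3 := pow_le_pow_left₀ (by norm_num) h6 3
  refine ⟨?_, ?_, ?_, ?_⟩
  · calc 200000 * ((n : ℝ) + 1) ^ 3 ≤ Real.exp (3 * Z) * Real.exp Z ^ 3 := by gcongr
      _ = Real.exp (6 * Z) := by
          rw [← Real.exp_nat_mul, ← Real.exp_add]
          congr 1
          push_cast
          ring
      _ ≤ W := (Real.exp_le_exp.2 (by linarith)).trans h3
  · calc ((n : ℝ) + 1) * Real.exp (10 * (7002 * Y)) ≤ Real.exp Z * Real.exp (10 * (7002 * Y)) := by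
          gcongr
      _ = Real.exp (Z + 10 * (7002 * Y)) := by rw [← Real.exp_add]
      _ ≤ W := (Real.exp_le_exp.2 (by linarith)).trans h3
  · have h7 : (7002 : ℝ) ≤ Y ^ 2 := by nlinarith
    calc (7002 * Y) ^ 6 ≤ (Y ^ 2 * Y) ^ 6 := by gcongr
      _ = Y ^ 18 := by ring
      _ ≤ Y ^ C := pow_le_pow_right₀ (by linarith) (by omega)
  · have h7 : (7001 : ℝ) ≤ Y ^ 2 := by nlinarith
    calc 7001 * Y ≤ Y ^ 2 * Y := by gcongr
      _ = Y ^ 3 := by ring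
      _ ≤ Y ^ C := pow_le_pow_right₀ (by linarith) (by omega)

variable {Q : ℕ} [Fact Q.Prime] {n : ℕ}

theorem tb_zero (T : ℕ) : tb (0 : V Q n) T = bx Q n T := by
  ext y
  rw [mem_tb, sub_zero]

theorem chart_mono {ξ : V Q n → V Q n} {S E Θ : Finset (V Q n)} {Tc W : ℕ} {τ τ' : ℝ}
    (h : Chart ξ S Θ Tc W τ) (hE : E ⊆ S) (hτ : τ ≤ τ') : Chart ξ E Θ Tc W τ' := by
  intro n' T0 TP P h1 h2 h3 h4 h5
  obtain ⟨Ξ, hΞ⟩ := h n' T0 TP P h1 h2 h3 h4 h5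
  exact ⟨Ξ, fun x hx y hy a ha hxy i => (hΞ x (hE hx) y (hE hy) a ha hxy i).trans hτ⟩

theorem fix3 {α : Type} (B0 B1 B2 : Finset α) (F : α → α → α → α → α → Prop)
    [∀ x b b' a a', Decidable (F x b b' a a')] (η : ℝ) (n0 : B0.Nonempty) (n1 : B1.Nonempty)
    (n2 : B2.Nonempty)
    (h : η ≤ 𝔼 x ∈ B0, 𝔼 b ∈ B1, 𝔼 b' ∈ B1, 𝔼 a ∈ B2, 𝔼 a' ∈ B2,
      if F x b b' a a' then (1 : ℝ) else 0) :
    ∃ x b' a', η * (B1.card * B2.card) ≤
      ((B1 ×ˢ B2).filter (fun p => F x p.1 b' p.2 a')).card := by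
  obtain ⟨x, -, h⟩ := exists_le_of_le_expect n0 h
  rw [expect_comm] at h
  obtain ⟨b', -, h⟩ := exists_le_of_le_expect n1 h
  have e : (𝔼 b ∈ B1, 𝔼 a ∈ B2, 𝔼 a' ∈ B2, if F x b b' a a' then (1 : ℝ) else 0) =
      𝔼 a' ∈ B2, 𝔼 p ∈ B1 ×ˢ B2, if F x p.1 b' p.2 a' then (1 : ℝ) else 0 := by
    rw [expect_comm B2 (B1 ×ˢ B2), expect_product]
  rw [e] at h
  obtain ⟨a', -, h⟩ := exists_le_of_le_expect n2 h
  refine ⟨x, b', a', ?_⟩
  rw [expect_eq_sum_div_card, sum_boole, card_product, Nat.cast_mul, le_div_iff₀] at h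
  · exact h
  · have := n1.card_pos
    have := n2.card_pos
    positivity

open Classical in
/-- fixing three of the five variables of the energy -/
theorem reduce (ξ : V Q n → V Q n) (U : Finset (V Q n)) (T Tb Ta : ℕ) (τ L : ℝ) (hτ : 0 ≤ τ)
    (n0 : (bx Q n T).Nonempty) (n1 : (bx Q n Tb).Nonempty) (n2 : (bx Q n Ta).Nonempty)
    (h : Real.exp (-L) ≤ ener ξ U T Tb Ta τ) :
    ∃ (f ζ : V Q n → V Q n) (y0 : V Q n), ((bx Q n Tb).card : ℝ) * (bx Q n Ta).card ≤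
      Real.exp L * ((tb (0 : V Q n) Tb ×ˢ tb y0 Ta).filter
        (fun p => p.2 ∈ U ∧ sn (f p.1 + ξ p.2 - ζ (p.1 + p.2)) ≤ τ)).card := by
  obtain ⟨x, b', a', h⟩ := fix3 _ _ _ _ _ n0 n1 n2 h
  refine ⟨fun b => ξ (x + b + a') - ξ (x + b' + a'), fun c => ξ (c - b'), x + b', ?_⟩
  have hE : Real.exp L * Real.exp (-L) = 1 := by rw [← Real.exp_add]; simp
  have h1 := mul_le_mul_of_nonneg_left h (Real.exp_pos L).le
  rw [← mul_assoc, hE, one_mul] at h1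
  refine h1.trans (mul_le_mul_of_nonneg_left ?_ (Real.exp_pos L).le)
  refine Nat.cast_le.2 (card_le_card_of_injOn (fun p => (p.1, p.2 + (x + b'))) ?_ ?_)
  · intro p hp
    simp only [coe_filter, mem_product, Set.mem_setOf_eq] at hp ⊢
    obtain ⟨⟨hp1, hp2⟩, -, -, hU, -, hs⟩ := hp
    refine ⟨⟨by rw [tb_zero]; exact hp1, by rw [mem_tb]; simpa using hp2⟩,
      by rw [add_comm]; exact hU, ?_⟩
    rw [← sz_sn.neg, sn_le_iff hτ]
    intro i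
    have e1 : p.2 + (x + b') = x + b' + p.2 := by abel
    have e2 : p.1 + (x + b' + p.2) - b' = x + p.1 + p.2 := by abel
    rw [e1, e2]
    have e3 : -(ξ (x + p.1 + a') - ξ (x + b' + a') + ξ (x + b' + p.2) - ξ (x + p.1 + p.2)) =
        ξ (x + p.1 + p.2) - ξ (x + p.1 + a') - ξ (x + b' + p.2) + ξ (x + b' + a') := by abel
    rw [e3]
    exact hs i
  · intro p _ p' _ hpp
    simp only [Prod.mk.injEq, add_left_inj] at hpp
    exact Prod.ext hpp.1 hpp.2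

theorem num_scales (n Q W Tc Tt I : ℕ) (hW : 200000 * (n + 1) ^ 3 ≤ W) (hTc : 1 ≤ Tc)
    (h5 : W ^ 5 * Tc ≤ Tt) (hI : W ^ 3 ≤ I) (hQ : 4 * (I * Tt) ≤ Q) :
    1 ≤ W ∧ 1 ≤ Tt ∧ 1 ≤ I ∧ W ^ 2 * Tt ≤ Q ∧ W * Tt ≤ Q ∧ I * Tt ≤ Q ∧
      2 * (n + 1) * (W * Tt) ≤ W ^ 2 * Tt ∧
      2 * (n + 1) * (48 * (n + 1) ^ 2 * Tt) ≤ W * Tt ∧
      8 * (n + 1) * (W ^ 4 * Tc) ≤ Tt ∧ 4 * (n + 1) * Tt + I * Tt ≤ Q ∧ Tc ≤ Tt ∧
      W * Tc ≤ W ^ 4 * Tc := by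
  have h1 : n + 1 ≤ (n + 1) ^ 3 := Nat.le_self_pow (by norm_num) _
  have hW1 : 1 ≤ W := by omega
  have hW8 : 8 * (n + 1) ≤ W := by omega
  have hp : ∀ a b : ℕ, a ≤ b → W ^ a ≤ W ^ b := fun a b h => Nat.pow_le_pow_right hW1 h
  have hW5 : 1 ≤ W ^ 5 := Nat.one_le_pow _ _ hW1
  have hTcTt : Tc ≤ Tt := le_trans (Nat.le_mul_of_pos_left _ hW5) h5
  have hWI : W ≤ I := le_trans (by simpa using hp 1 3 (by norm_num)) hI
  have hW2I : W ^ 2 ≤ I := (hp 2 3 (by norm_num)).trans hI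
  have a1 : W ^ 2 * Tt ≤ I * Tt := Nat.mul_le_mul_right _ hW2I
  have a2 : W * Tt ≤ I * Tt := Nat.mul_le_mul_right _ hWI
  have a3 : 4 * (n + 1) * Tt ≤ W * Tt := Nat.mul_le_mul_right _ (by omega)
  refine ⟨hW1, by omega, by omega, by omega, by omega, by omega, ?_, ?_, ?_, by omega, hTcTt, ?_⟩
  · calc 2 * (n + 1) * (W * Tt) ≤ W * (W * Tt) := Nat.mul_le_mul_right _ (by omega)
      _ = W ^ 2 * Tt := by ring
  · calc 2 * (n + 1) * (48 * (n + 1) ^ 2 * Tt) = 96 * (n + 1) ^ 3 * Tt := by ring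
      _ ≤ W * Tt := Nat.mul_le_mul_right _ (by omega)
  · calc 8 * (n + 1) * (W ^ 4 * Tc) ≤ W * (W ^ 4 * Tc) := Nat.mul_le_mul_right _ hW8
      _ = W ^ 5 * Tc := by ring
      _ ≤ Tt := h5
  · exact Nat.mul_le_mul_right _ (by simpa using hp 1 4 (by norm_num))

theorem num_tau (n : ℕ) (W τ t : ℝ) (hτ : 0 < τ) (hW : 200000 * ((n : ℝ) + 1) ^ 3 ≤ W)
    (h : W ^ 2 * τ ≤ 1) (ht : t ≤ τ) :
    100000 * ((n : ℝ) + 1) ^ 2 * τ ≤ 1 ∧ 6 * (20000 * ((n : ℝ) + 1) ^ 2 * τ) < 1 ∧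
      (n + 1) * (7 * (20000 * ((n : ℝ) + 1) ^ 2 * τ) + t) ≤ W * τ := by
  have hn : (1 : ℝ) ≤ (n : ℝ) + 1 := by linarith [Nat.cast_nonneg (α := ℝ) n]
  have h2 : ((n : ℝ) + 1) ^ 2 ≤ ((n : ℝ) + 1) ^ 3 := pow_le_pow_right₀ hn (by norm_num)
  have h1 : ((n : ℝ) + 1) ≤ ((n : ℝ) + 1) ^ 3 := le_self_pow₀ hn (by norm_num)
  have hW1 : 1 ≤ W := by linarith
  have h3 : W * τ ≤ W ^ 2 * τ := by
    gcongr
    exact le_self_pow₀ hW1 (by norm_num)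
  have h4 : 200000 * ((n : ℝ) + 1) ^ 3 * τ ≤ W * τ := by gcongr
  have h5 : ((n : ℝ) + 1) ^ 2 * τ ≤ ((n : ℝ) + 1) ^ 3 * τ := by gcongr
  have h6 : 0 < ((n : ℝ) + 1) ^ 2 * τ := by positivity
  have h7 : ((n : ℝ) + 1) * t ≤ ((n : ℝ) + 1) ^ 3 * τ :=
    (mul_le_mul_of_nonneg_left ht (by linarith)).trans (by gcongr)
  refine ⟨by linarith, by linarith, ?_⟩
  have e : (n + 1) * (7 * (20000 * ((n : ℝ) + 1) ^ 2 * τ) + t) =
      140000 * (((n : ℝ) + 1) ^ 3 * τ) + ((n : ℝ) + 1) * t := by ring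
  rw [e]
  linarith

theorem fr_of (hL : LIST) (hP : PLU) (hC : CSL) (hR : RND) (hF : FAT) (hB : BOX) (hG : BOG)
    (hT : TILE) (hH : CHART) : FR := by
  classical
  obtain ⟨X0, hG⟩ := hG
  refine ⟨max 100 ⌈X0⌉₊, fun X Y Z τ Q _ n W Tc Tt I ξ U hPar hn hW hTc h5 hI hQ hτQ hWτ hU hE => ?_⟩
  set C := max 100 ⌈X0⌉₊ with hCdef
  have hC100 : 100 ≤ C := le_max_left _ _
  obtain ⟨hCX, hXY, hYZ, hZX⟩ := hPar
  have hC' : (100 : ℝ) ≤ C := by exact_mod_cast hC100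
  have hY : (100 : ℝ) ≤ Y := by linarith
  have hX0 : X0 ≤ 7002 * Y := by
    have h1 : X0 ≤ (⌈X0⌉₊ : ℝ) := Nat.le_ceil _
    have h2 : (⌈X0⌉₊ : ℝ) ≤ C := by exact_mod_cast le_max_right _ _
    linarith
  obtain ⟨w1, w2, w3, w4⟩ := num_W C Y Z W n hC100 (hCX.trans hXY) hYZ hn hW
  obtain ⟨s1, s2, s3, s4, s5, s6, s7, s8, s9, s10, s11, s12⟩ :=
    num_scales n Q W Tc Tt I (by exact_mod_cast w1) hTc h5 hI hQ
  have hQ0 : (0 : ℝ) < Q := Qpos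
  have hτ : 0 < τ := by
    have h1 : (1 : ℝ) ≤ Tt := by exact_mod_cast s2
    by_contra hc
    have := mul_nonpos_of_nonpos_of_nonneg (not_lt.1 hc) hQ0.le
    linarith
  have hTcτ : (Tc : ℝ) / Q ≤ τ := by
    rw [div_le_iff₀ hQ0]
    exact le_trans (by exact_mod_cast s11) hτQ
  obtain ⟨t1, t2, t3⟩ := num_tau n W τ _ hτ w1 hWτ hTcτ
  have b1 := (hB Q n).1
  have cb : ∀ T : ℕ, T ≤ Q → (bx Q n T).card = T ^ n := fun T h => by
    rw [← tb_zero]; exact (b1 0 T).2 h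
  have nb : ∀ T : ℕ, 1 ≤ T → T ≤ Q → (bx Q n T).Nonempty := fun T h1 h2 => by
    rw [← card_pos, cb T h2]; positivity
  obtain ⟨f, ζ, y0, hcount⟩ := reduce ξ U _ _ _ τ Y hτ.le (nb _ (Nat.mul_pos s3 s2) s6)
    (nb _ (Nat.mul_pos (Nat.pow_pos s1) s2) s4) (nb _ (Nat.mul_pos s1 s2) s5) hE
  rw [cb _ s4, cb _ s5, Nat.cast_pow, Nat.cast_pow] at hcount
  obtain ⟨x, S, hSU, hSx, -, cS, hrel⟩ := core hL hP hC hR hF hB f ξ ζ U y0 (W ^ 2 * Tt) (W * Tt)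
    (48 * (n + 1) ^ 2 * Tt) (4 * (n + 1) * Tt) τ Y (by linarith) hτ t1 s4 s7 s8
    (le_of_eq (by ring)) (Nat.mul_pos (by omega) s2) hcount
  have e2 : (4 : ℝ) ≤ Real.exp (2 * Y) := by linarith [Real.add_one_le_exp (2 * Y)]
  have e1 : (2 : ℝ) ≤ Real.exp Y := by linarith [Real.add_one_le_exp Y]
  obtain ⟨Θ, cΘ, hbog⟩ := hG (7002 * Y) Z hX0 (by linarith)
    (((pow_le_pow_right₀ (by linarith) (by omega)).trans hZX).trans
      (Real.exp_le_exp.2 (by linarith))) Q n S x (4 * (n + 1) * Tt) Tt (W ^ 4 * Tc) ((n + 1) * Tc)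
    hn (Nat.mul_pos (by omega) hTc)
    (by
      have h1 : ((W * Tc : ℕ) : ℝ) ≤ (W ^ 4 * Tc : ℕ) := by exact_mod_cast s12
      refine le_trans ?_ h1
      push_cast
      calc ((n : ℝ) + 1) * Tc * Real.exp (10 * (7002 * Y))
          = ((n : ℝ) + 1) * Real.exp (10 * (7002 * Y)) * Tc := by ring
        _ ≤ W * Tc := by gcongr)
    s9 le_rfl (by omega) hSx
    (by
      calc 4 * ((4 * (n + 1) * Tt : ℕ) : ℝ) ^ n
          ≤ Real.exp (2 * Y) * (Real.exp (7000 * Y) * S.card) := by gcongr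
        _ = Real.exp (7002 * Y) * S.card := by
          rw [← mul_assoc, ← Real.exp_add]
          congr 2
          ring)
  have hch := hH Q n ξ S Θ ((n + 1) * Tc) Tc W (Real.exp (-(3 * (7002 * Y)))) _ (by positivity) t2
    (Nat.mul_le_mul_right _ (Nat.le_succ n)) s1
    (by
      have h1 : ((n : ℝ) + 1) * Real.exp (3 * (7002 * Y)) ≤ W :=
        le_trans (by gcongr; linarith) w2
      have h2 : Real.exp (3 * (7002 * Y)) * Real.exp (-(3 * (7002 * Y))) = 1 := by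
        rw [← Real.exp_add]; simp
      calc (n : ℝ) ≤ (n + 1) * (Real.exp (3 * (7002 * Y)) * Real.exp (-(3 * (7002 * Y)))) := by
            rw [h2]; linarith
        _ = (n + 1) * Real.exp (3 * (7002 * Y)) * Real.exp (-(3 * (7002 * Y))) := by ring
        _ ≤ W * Real.exp (-(3 * (7002 * Y))) := by gcongr)
    hrel hbog
  obtain ⟨j, hj, cE⟩ := hT Q n x (4 * (n + 1) * Tt) Tt I S hSx (hSU.trans hU) s2 s3
    (Nat.mul_le_mul_right _ (by omega)) s10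
  refine ⟨j, S ∩ tile Q n Tt j, Θ, hj, inter_subset_inter hSU Subset.rfl, ?_, cΘ.trans w3,
    chart_mono hch inter_subset_left t3⟩
  have cE' : (S.card : ℝ) * (Tt : ℝ) ^ n ≤
      2 * ((4 * (n + 1) * Tt : ℕ) : ℝ) ^ n * (S ∩ tile Q n Tt j).card := by exact_mod_cast cE
  have p4 : (0 : ℝ) < ((4 * (n + 1) * Tt : ℕ) : ℝ) ^ n := by
    have : 0 < 4 * (n + 1) * Tt := Nat.mul_pos (by omega) s2
    positivity
  have h1 := num_den p4 (by positivity) (Real.exp_pos _).le cS cE'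
  have h2 : 2 * Real.exp (7000 * Y) ≤ Real.exp (Y ^ C) := by
    calc 2 * Real.exp (7000 * Y) ≤ Real.exp Y * Real.exp (7000 * Y) := by gcongr
      _ = Real.exp (7001 * Y) := by
        rw [← Real.exp_add]
        congr 1
        ring
      _ ≤ _ := Real.exp_le_exp.2 w4
  have h3 : Real.exp (-Y ^ C) * Real.exp (Y ^ C) = 1 := by rw [← Real.exp_add]; simp
  calc Real.exp (-Y ^ C) * (Tt : ℝ) ^ n
      ≤ Real.exp (-Y ^ C) * (Real.exp (Y ^ C) * (S ∩ tile Q n Tt j).card) := by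
        gcongr
        exact h1.trans (by gcongr)
    _ = _ := by rw [← mul_assoc, h3, one_mul]

end Vale.Agent.P057Z.Fr
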