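import Vale.Agent.P057Z.Defs

/-! Block Fr (energy gives a chart): definitions and small facts. -/

set_option linter.all false

open Finset
open scoped BigOperators

namespace Vale.Agent.P057Z.Fr

noncomputable section

/-- a size function on an abelian group -/
structure Sz {Y : Type} [AddCommGroup Y] (N : Y → ℝ) : Prop where
  add : ∀ x y, N (x + y) ≤ N x + N y
  neg : ∀ x, N (-x) = N x
  zero : N 0 = 0

/-- every r-separated finite family of points of Z has at most M members -/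
def Few {Y : Type} [AddCommGroup Y] (N : Y → ℝ) (M r : ℝ) (Z : Set Y) : Prop :=
  ∀ s : Finset Y, (∀ x ∈ s, x ∈ Z) → (∀ x ∈ s, ∀ y ∈ s, x ≠ y → r < N (x - y)) →
    (s.card : ℝ) ≤ M

/-- values f a + g b over the point c -/
def Fib2 {G Y : Type} [AddCommGroup G] [AddCommGroup Y] (f g : G → Y) (A B : Finset G) (c : G) :
    Set Y :=
  {z | ∃ a ∈ A, ∃ b ∈ B, a + b = c ∧ z = f a + g b}

/-- sums of j values of g on B over the point c -/
def Fib {G Y : Type} [AddCommGroup G] [AddCommGroup Y] (g : G → Y) (B : Finset G) (j : ℕ) (c : G) :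
    Set Y :=
  {z | ∃ b : Fin j → G, (∀ i, b i ∈ B) ∧ ∑ i, b i = c ∧ z = ∑ i, g (b i)}

/-- defects of g on the relations with j terms on each side -/
def Rel {G Y : Type} [AddCommGroup G] [AddCommGroup Y] (g : G → Y) (B : Finset G) (j : ℕ) :
    Set Y :=
  {z | ∃ s t : Fin j → G, (∀ i, s i ∈ B) ∧ (∀ i, t i ∈ B) ∧ ∑ i, s i = ∑ i, t i ∧
    z = ∑ i, g (s i) - ∑ i, g (t i)}

variable {Q : ℕ} [Fact Q.Prime] {n : ℕ}

/-- the largest coordinate size -/
def sn (θ : V Q n) : ℝ := ‖fun i => nm (θ i)‖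

/-- a translated box -/
def tb (x : V Q n) (T : ℕ) : Finset (V Q n) := (bx Q n T).image fun y => y + x

/-- every short vector on which the frequencies are small is s1 + s2 - s3 - s4 -/
def Bog (S Θ : Finset (V Q n)) (T5 : ℕ) (τ : ℝ) : Prop :=
  ∀ x : V Q n, Near x T5 → (∀ θ ∈ Θ, nm (θ ⬝ᵥ x) ≤ τ) →
    ∃ s1 ∈ S, ∃ s2 ∈ S, ∃ s3 ∈ S, ∃ s4 ∈ S, x = s1 + s2 - s3 - s4

theorem Qpos : (0 : ℝ) < Q := by
  exact_mod_cast (Fact.out : Q.Prime).pos

theorem nm_nonneg (u : ZMod Q) : 0 ≤ nm u := div_nonneg (abs_nonneg _) Qpos.le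

theorem nm_zero : nm (0 : ZMod Q) = 0 := by simp [nm]

theorem nm_neg (u : ZMod Q) : nm (-u) = nm u := by
  unfold nm
  have h := ZMod.natAbs_valMinAbs_neg u
  have h2 : |(-u).valMinAbs| = |u.valMinAbs| := by
    rw [Int.abs_eq_natAbs, Int.abs_eq_natAbs, h]
  rw [← Int.cast_abs, ← Int.cast_abs, h2]

/-- the size of a residue is at most the size of any integer that represents it -/
theorem nm_cast_le (k : ℤ) : nm (k : ZMod Q) ≤ |(k : ℝ)| / Q := by
  unfold nm
  refine div_le_div_of_nonneg_right ?_ Qpos.le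
  have h : ((k : ZMod Q).valMinAbs).natAbs ≤ k.natAbs :=
    ZMod.natAbs_min_of_le_div_two Q _ _ (by simp) (ZMod.natAbs_valMinAbs_le _)
  rw [← Int.cast_abs, ← Int.cast_abs, Int.abs_eq_natAbs, Int.abs_eq_natAbs]
  exact_mod_cast h

theorem nm_add (u v : ZMod Q) : nm (u + v) ≤ nm u + nm v := by
  have h := nm_cast_le (Q := Q) (u.valMinAbs + v.valMinAbs)
  simp only [Int.cast_add, ZMod.coe_valMinAbs] at h
  refine h.trans ?_
  unfold nm
  rw [← add_div]
  exact div_le_div_of_nonneg_right (abs_add_le _ _) Qpos.le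

theorem nm_sub (u v : ZMod Q) : nm (u - v) ≤ nm u + nm v := by
  rw [sub_eq_add_neg]
  exact (nm_add _ _).trans (by rw [nm_neg])

theorem nm_int_mul (k : ℤ) (u : ZMod Q) : nm ((k : ZMod Q) * u) ≤ |(k : ℝ)| * nm u := by
  have h := nm_cast_le (Q := Q) (k * u.valMinAbs)
  simp only [Int.cast_mul, ZMod.coe_valMinAbs] at h
  refine h.trans (le_of_eq ?_)
  unfold nm
  rw [abs_mul, mul_div_assoc]

theorem nm_sum {α : Type} (s : Finset α) (u : α → ZMod Q) :
    nm (∑ i ∈ s, u i) ≤ ∑ i ∈ s, nm (u i) := by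
  classical
  induction s using Finset.induction_on with
  | empty => simp [nm_zero]
  | insert a s ha ih =>
    rw [sum_insert ha, sum_insert ha]
    exact (nm_add _ _).trans (by linarith)

theorem sz_nm : Sz (nm : ZMod Q → ℝ) := ⟨nm_add, nm_neg, nm_zero⟩

theorem sn_nonneg (θ : V Q n) : 0 ≤ sn θ := norm_nonneg _

theorem sn_le_iff {θ : V Q n} {r : ℝ} (hr : 0 ≤ r) : sn θ ≤ r ↔ ∀ i, nm (θ i) ≤ r := by
  unfold sn
  rw [pi_norm_le_iff_of_nonneg hr]
  refine forall_congr' fun i => ?_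
  rw [Real.norm_eq_abs, abs_of_nonneg (nm_nonneg _)]

theorem nm_le_sn (θ : V Q n) (i : Fin n) : nm (θ i) ≤ sn θ :=
  (sn_le_iff (sn_nonneg θ)).1 le_rfl i

theorem sz_sn : Sz (sn : V Q n → ℝ) := by
  refine ⟨fun x y => ?_, fun x => ?_, ?_⟩
  · rw [sn_le_iff (add_nonneg (sn_nonneg _) (sn_nonneg _))]
    intro i
    exact (nm_add _ _).trans (add_le_add (nm_le_sn x i) (nm_le_sn y i))
  · unfold sn
    simp only [Pi.neg_apply, nm_neg]
  · refine le_antisymm ?_ (sn_nonneg _)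
    rw [sn_le_iff le_rfl]
    intro i
    exact le_of_eq nm_zero

theorem Sz.nonneg {Y : Type} [AddCommGroup Y] {N : Y → ℝ} (h : Sz N) (x : Y) : 0 ≤ N x := by
  have h1 := h.add x (-x)
  rw [add_neg_cancel, h.zero, h.neg] at h1
  linarith

theorem Sz.sub {Y : Type} [AddCommGroup Y] {N : Y → ℝ} (h : Sz N) (x y : Y) :
    N (x - y) ≤ N x + N y := by
  rw [sub_eq_add_neg]
  exact (h.add _ _).trans (by rw [h.neg])

theorem Sz.symm {Y : Type} [AddCommGroup Y] {N : Y → ℝ} (h : Sz N) (x y : Y) :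
    N (x - y) = N (y - x) := by
  rw [← h.neg, neg_sub]

theorem Sz.tri {Y : Type} [AddCommGroup Y] {N : Y → ℝ} (h : Sz N) (x y z : Y) :
    N (x - z) ≤ N (x - y) + N (y - z) := by
  have := h.add (x - y) (y - z)
  rwa [sub_add_sub_cancel] at this

theorem Few.mono {Y : Type} [AddCommGroup Y] {N : Y → ℝ} {M M' r r' : ℝ} {Z Z' : Set Y}
    (h : Few N M r Z) (hM : M ≤ M') (hr : r ≤ r') (hZ : Z' ⊆ Z) : Few N M' r' Z' :=
  fun s hs hsep => (h s (fun x hx => hZ (hs x hx))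
    (fun x hx y hy hxy => lt_of_le_of_lt hr (hsep x hx y hy hxy))).trans hM

/-- a set with few separated points is covered by few balls -/
theorem Few.cover {Y : Type} [AddCommGroup Y] [Fintype Y] {N : Y → ℝ} (hN : Sz N) {M r : ℝ}
    (hr : 0 ≤ r) {Z : Set Y} (h : Few N M r Z) :
    ∃ L : Finset Y, (∀ l ∈ L, l ∈ Z) ∧ (L.card : ℝ) ≤ M ∧ ∀ z ∈ Z, ∃ l ∈ L, N (z - l) ≤ r := by
  classical
  set F : Finset (Finset Y) := univ.filter fun s =>
    (∀ x ∈ s, x ∈ Z) ∧ ∀ x ∈ s, ∀ y ∈ s, x ≠ y → r < N (x - y) with hF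
  have hne : F.Nonempty := ⟨∅, by simp [hF]⟩
  obtain ⟨L, hL, hmax⟩ := exists_max_image F (fun s => s.card) hne
  simp only [hF, mem_filter, mem_univ, true_and] at hL
  refine ⟨L, hL.1, h L hL.1 hL.2, fun z hz => ?_⟩
  by_contra hcon
  push Not at hcon
  have hzL : z ∉ L := fun hzl => by
    have := hcon z hzl
    rw [sub_self, hN.zero] at this
    linarith
  have hin : insert z L ∈ F := by
    simp only [hF, mem_filter, mem_univ, true_and, mem_insert]
    refine ⟨?_, ?_⟩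
    · rintro x (rfl | hx)
      · exact hz
      · exact hL.1 x hx
    · rintro x (rfl | hx) y (rfl | hy) hxy
      · exact absurd rfl hxy
      · exact hcon y hy
      · rw [hN.symm]; exact hcon x hx
      · exact hL.2 x hx y hy hxy
  have := hmax _ hin
  rw [card_insert_of_notMem hzL] at this
  omega

theorem mem_bx {T : ℕ} {y : V Q n} :
    y ∈ bx Q n T ↔ ∃ v : Fin n → ℕ, (∀ i, v i < T) ∧ y = fun i => (v i : ZMod Q) := by
  unfold bx
  simp only [Fintype.mem_piFinset, mem_image, mem_range]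
  constructor
  · intro h
    choose v hv hv' using h
    exact ⟨v, hv, funext fun i => (hv' i).symm⟩
  · rintro ⟨v, hv, rfl⟩ i
    exact ⟨v i, hv i, rfl⟩

theorem mem_tb {T : ℕ} {x y : V Q n} : y ∈ tb x T ↔ y - x ∈ bx Q n T := by
  unfold tb
  rw [mem_image]
  constructor
  · rintro ⟨z, hz, rfl⟩
    simpa using hz
  · intro h
    exact ⟨y - x, h, by simp⟩

theorem tile_eq (Tt : ℕ) (j : Fin n → ℕ) :
    tile Q n Tt j = tb (fun i => ((Tt * j i : ℕ) : ZMod Q)) Tt := rfl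

end

end Vale.Agent.P057Z.Fr
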