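import Vale.Agent.P057Z.Fr.Defs

/-! Block Fr: the statements of the rows. -/

set_option linter.all false

open Finset
open scoped BigOperators

namespace Vale.Agent.P057Z.Fr

/-- paths of length three: few values of f a + g b over each point -/
def LIST : Prop :=
  ∀ (G Y : Type) [AddCommGroup G] [DecidableEq G] [AddCommGroup Y] (N : Y → ℝ), Sz N →
    ∀ (P1 P2 : Finset G) (f g ζ : G → Y) (r : G → G → Prop) [∀ a b, Decidable (r a b)] (K ρ : ℝ),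
      1 ≤ K → P1.Nonempty → P2.Nonempty → (∀ a b, r a b → N (f a + g b - ζ (a + b)) ≤ ρ) →
      (P1.card : ℝ) * P2.card ≤ K * ((P1 ×ˢ P2).filter (fun p => r p.1 p.2)).card →
      ∃ A' ⊆ P1, ∃ B' ⊆ P2, (P1.card : ℝ) ≤ 6 * K * A'.card ∧ (P2.card : ℝ) ≤ 4 * K * B'.card ∧
        (∀ b ∈ B', ∃ a, r a b) ∧
        ∀ B'' ⊆ B', ∀ X1 X2 : Finset G, (∀ a ∈ P1, ∀ b ∈ P2, a + b ∈ X1) →
          (∀ b' ∈ P2, ∀ b ∈ B'', b' - b ∈ X2) → ∀ c,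
            Few N (3072 * K ^ 5 * X1.card * X2.card / (P1.card * P2.card)) (6 * ρ)
              (Fib2 f g A' B'' c)

/-- the inequality of Petridis for the fattened graph -/
def PLU : Prop :=
  ∀ (G Y : Type) [AddCommGroup G] [DecidableEq G] [AddCommGroup Y] [Fintype Y] [DecidableEq Y]
    (N : Y → ℝ), Sz N →
    ∀ (A B X1 : Finset G) (U U' : Finset Y) (f g : G → Y) (M r0 r1 : ℝ) (j : ℕ),
      A.Nonempty → U.Nonempty → 0 ≤ r0 → (∀ a ∈ A, ∀ b ∈ B, a + b ∈ X1) →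
      (∀ u ∈ U, N u ≤ r1) → (∀ u ∈ U, ∀ y, N y ≤ r0 → u + y ∈ U') →
      U'.card ≤ 2 * U.card → (∀ c, Few N M r0 (Fib2 f g A B c)) →
      ∀ c, Few N ((2 * M * X1.card / A.card) ^ j) (2 * r1) (Fib g B j c)

/-- from the fibres of the sums to the fibre of the differences over zero -/
def CSL : Prop :=
  ∀ (G Y : Type) [AddCommGroup G] [DecidableEq G] [AddCommGroup Y] [Fintype Y] [DecidableEq Y]
    (N : Y → ℝ), Sz N →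
    ∀ (B B5 X3 : Finset G) (g : G → Y) (M r : ℝ) (j : ℕ), B5 ⊆ B → B.Nonempty → 0 ≤ r →
      (∀ b ∈ B, ∀ s : Fin j → G, (∀ i, s i ∈ B5) → b + ∑ i, s i ∈ X3) →
      (∀ c, Few N M r (Fib g B (j + 1) c)) →
      Few N (M ^ 2 * X3.card / B.card) (4 * r) (Rel g B5 j)

/-- few characters with small entries separate every far point from zero -/
def SEP : Prop :=
  ∀ (Q : ℕ) [Fact Q.Prime] (m T' t : ℕ) (L : Finset (V Q m)), 8 ≤ T' →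
    (L.card : ℝ) * (2 / 3) ^ t < 1 → (∀ l ∈ L, 1 / (T' : ℝ) < sn l) →
    ∃ s : Fin t → Fin m → ℕ, (∀ j i, s j i < T') ∧
      ∀ l ∈ L, ∃ j, 1 / 10 ≤ nm (∑ i, (s j i : ZMod Q) * l i)

/-- a large subset on which all relations of six terms nearly hold -/
def RND : Prop :=
  ∀ (Q : ℕ) [Fact Q.Prime] (m : ℕ) (G : Type) [AddCommGroup G] [DecidableEq G]
    (g : G → V Q m) (B : Finset G) (M r : ℝ) (T' t : ℕ), 8 ≤ T' → 0 ≤ r →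
    (m : ℝ) * T' * r ≤ 1 / 100 → M * (2 / 3) ^ t < 1 → Few sn M r (Rel g B 6) →
    ∃ S ⊆ B, B.card ≤ 1200 ^ t * S.card ∧ ∀ z ∈ Rel g S 6, sn z ≤ 1 / (T' : ℝ) + r

/-- a ball that hardly grows -/
def FAT : Prop :=
  ∀ (Q : ℕ) [Fact Q.Prime] (m : ℕ) (r0 : ℝ), 0 ≤ r0 → 4 * m * r0 < 1 →
    ∃ U U' : Finset (V Q m), U.Nonempty ∧ (∀ u ∈ U, sn u ≤ 2 * m * r0) ∧
      (∀ u ∈ U, ∀ y, sn y ≤ r0 → u + y ∈ U') ∧ U'.card ≤ 2 * U.card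

/-- stability of the additive equation on an interval -/
def HU1 : Prop :=
  ∀ (Q : ℕ) [Fact Q.Prime] (φ : ℤ → ZMod Q) (R : ℕ) (r : ℝ), 6 * r < 1 →
    (∀ a b : ℤ, |a| ≤ R → |b| ≤ R → |a + b| ≤ R → nm (φ (a + b) - φ a - φ b) ≤ r) →
    ∃ t : ZMod Q, ∀ a : ℤ, |a| ≤ R → nm (φ a - (a : ZMod Q) * t) ≤ 5 * r + (R : ℝ) / Q

/-- stability of the additive equation on a cube -/
def HUN : Prop :=
  ∀ (Q : ℕ) [Fact Q.Prime] (n m : ℕ) (φ : V Q n → V Q m) (R : ℕ) (r : ℝ), 6 * r < 1 →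
    (∀ a b : V Q n, Near a R → Near b R → Near (a + b) R →
      ∀ i, nm ((φ (a + b) - φ a - φ b) i) ≤ r) →
    ∃ Ξ : V Q n →ₗ[ZMod Q] V Q m, ∀ a, Near a R →
      ∀ i, nm ((φ a - Ξ a) i) ≤ (n + 1) * (6 * r + (R : ℝ) / Q)

/-- relations of six terms and a Bohr box in 2S - 2S give a chart -/
def CHART : Prop :=
  ∀ (Q : ℕ) [Fact Q.Prime] (n : ℕ) (ξ : V Q n → V Q n) (S Θ : Finset (V Q n)) (T5 Tc W : ℕ)
    (τB r : ℝ), 0 ≤ r → 6 * r < 1 → n * Tc ≤ T5 → 1 ≤ W → (n : ℝ) ≤ W * τB →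
    (∀ z ∈ Rel ξ S 6, sn z ≤ r) → Bog S Θ T5 τB →
    Chart ξ S Θ Tc W ((n + 1) * (7 * r + (Tc : ℝ) / Q))

/-- arithmetic of translated boxes -/
def BOX : Prop :=
  ∀ (Q : ℕ) [Fact Q.Prime] (n : ℕ),
    (∀ (x : V Q n) (T : ℕ), (tb x T).card ≤ T ^ n ∧ (T ≤ Q → (tb x T).card = T ^ n)) ∧
    (∀ (x y a b : V Q n) (T1 T2 : ℕ), a ∈ tb x T1 → b ∈ tb y T2 →
      a + b ∈ tb (x + y) (T1 + T2) ∧ a - b ∈ tb (x - y - fun _ => (T2 : ZMod Q)) (T1 + T2)) ∧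
    (∀ (y b x : V Q n) (T1 T2 j : ℕ) (s : Fin j → V Q n), b ∈ tb x T1 → (∀ i, s i ∈ tb y T2) →
      b + ∑ i, s i ∈ tb (x + j • y) (T1 + j * T2)) ∧
    (∀ T1 T2 : ℕ, 2 * n * T2 ≤ T1 → (T1 + T2) ^ n ≤ 2 * T1 ^ n) ∧
    (∀ (x : V Q n) (T T' : ℕ) (S : Finset (V Q n)), S ⊆ tb x T → T' ≤ Q → 2 * n * T' ≤ T →
      ∃ x' : V Q n, S.card * T' ^ n ≤ 2 * T ^ n * (S ∩ tb x' T').card) ∧
    (∀ (x : V Q n) (T T' : ℕ) (S : Finset (V Q n)), S ⊆ tb x T → 1 ≤ T' → 4 * n * T' ≤ T →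
      ∃ j : Fin n → ℕ, S.card * T' ^ n ≤ 2 * T ^ n * (S ∩ tile Q n T' j).card)

end Vale.Agent.P057Z.Fr
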